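import Mathlib

/-!
# Exact statements of the abstract existence theorem behind the Seiberg-Witten step

`FBU_statement` is a Fredholm version of the Borsuk-Ulam theorem over a two-torus,
`TOP_statement` its finite dimensional core.
-/

open Set Filter Topology Asymptotics

namespace Vale.Agent.P247.H931

/-- The points of the plane congruent to `c` modulo the integer lattice. -/
def Lat (c : ℝ × ℝ) : Set (ℝ × ℝ) := {ξ | ∃ m n : ℤ, ξ = c + ((m : ℝ), (n : ℝ))}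

/-- A family over `P` of continuous maps `W → W`, homogeneous of degree one for complex
scalars, without zeros away from the origin. -/
structure HFam {W : Type*} [NormedAddCommGroup W] [NormedSpace ℂ W]
    (P : Set (ℝ × ℝ)) (F : ℝ × ℝ → W → W) : Prop where
  cont : ContinuousOn (fun p : (ℝ × ℝ) × W => F p.1 p.2) (P ×ˢ univ)
  hom : ∀ ξ ∈ P, ∀ (a : ℂ) (w : W), F ξ (a • w) = a • F ξ w
  ne : ∀ ξ ∈ P, ∀ w ≠ 0, F ξ w ≠ 0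

/-- Finite dimensional core: a periodic family of homogeneous nowhere zero maps cannot extend
over the puncture after composition with rank one perturbations of the identity whose
determinant has a simple zero. -/
def TOP_statement : Prop :=
  ∀ (W : Type) [NormedAddCommGroup W] [NormedSpace ℂ W] [FiniteDimensional ℂ W]
    (c : ℝ × ℝ) (F : ℝ × ℝ → W → W), HFam (Lat c)ᶜ F →
    (∀ ξ w, F (ξ + (1, 0)) w = F ξ w) → (∀ ξ w, F (ξ + (0, 1)) w = F ξ w) →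
    ∀ (r : ℝ), 0 < r → ∀ (F' : ℝ × ℝ → W → W), HFam (Metric.closedBall c r) F' →
    ∀ (φ : W) (μ : ℝ × ℝ → (W →L[ℂ] ℂ)), ContinuousOn μ (Metric.closedBall c r) →
    ∀ (κ : ℂ), κ ≠ 0 →
    ((fun h : ℝ × ℝ => 1 - μ (c + h) φ - κ * ((h.1 : ℂ) + (h.2 : ℂ) * Complex.I)) =o[𝓝 0]
      fun h => h) →
    (∀ ξ ∈ Metric.closedBall c r, ξ ∉ Lat c → ∀ w, F ξ (w - μ ξ w • φ) = F' ξ w) →
    False

/-- Fredholm Borsuk-Ulam theorem over the two-torus. -/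
def FBU_statement : Prop :=
  ∀ (X Y : Type) [NormedAddCommGroup X] [InnerProductSpace ℂ X] [CompleteSpace X]
    [NormedAddCommGroup Y] [InnerProductSpace ℂ Y] [CompleteSpace Y]
    (D : ℝ → ℝ × ℝ → (X →L[ℂ] Y)),
    ContinuousOn (fun p : ℝ × (ℝ × ℝ) => D p.1 p.2) (Icc 0 1 ×ˢ univ) →
    (∀ s ∈ Icc (0 : ℝ) 1, ∀ ξ, D s (ξ + (1, 0)) = D s ξ) →
    (∀ s ∈ Icc (0 : ℝ) 1, ∀ ξ, D s (ξ + (0, 1)) = D s ξ) →
    (∀ s ∈ Icc (0 : ℝ) 1, ∀ ξ, ∃ C > 0, ∃ j : X →L[ℂ] Y, IsCompactOperator j ∧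
      ∀ ψ, ‖ψ‖ ≤ C * (‖D s ξ ψ‖ + ‖j ψ‖)) →
    ∀ (c : ℝ × ℝ), (∀ ξ ∉ Lat c, Function.Bijective (D 1 ξ)) →
    ∀ (ψ₀ : X) (φ₀ : Y) (κ : ℂ), κ ≠ 0 →
    (∀ ψ, D 1 c ψ = 0 ↔ ∃ a : ℂ, ψ = a • ψ₀) →
    (∀ y : Y, (∀ ψ, inner ℂ y (D 1 c ψ) = 0) ↔ ∃ a : ℂ, y = a • φ₀) →
    ((fun h : ℝ × ℝ => inner ℂ φ₀ (D 1 (c + h) ψ₀) - κ * ((h.1 : ℂ) + (h.2 : ℂ) * Complex.I))
      =o[𝓝 0] fun h => h) →
    ((fun h : ℝ × ℝ => D 1 (c + h) - D 1 c) =O[𝓝 0] fun h => h) →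
    ∀ (K : ℝ × ℝ → X → Y), Continuous (fun p : (ℝ × ℝ) × X => K p.1 p.2) →
    (∀ ξ ψ, K (ξ + (1, 0)) ψ = K ξ ψ) → (∀ ξ ψ, K (ξ + (0, 1)) ψ = K ξ ψ) →
    (∀ ξ (a : ℂ) ψ, K ξ (a • ψ) = a • K ξ ψ) →
    (∀ R : ℝ, ∃ S : Set Y, IsCompact S ∧ ∀ ξ ψ, ‖ψ‖ ≤ R → K ξ ψ ∈ S) →
    ∃ ξ, ∃ ψ ≠ 0, D 0 ξ ψ + K ξ ψ = 0

/-- The Fredholm reduction: the finite dimensional core implies the Fredholm version. -/
def RED_statement : Prop := TOP_statement → FBU_statement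

end Vale.Agent.P247.H931
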