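import Vale.Agent.P247.H931.TopB

/-!
The finite dimensional core: `TOP : TOP_statement`.
-/

namespace Vale.Agent.P247.H931

open Set Filter Topology Metric

theorem HFam.toFm {W : Type*} [NormedAddCommGroup W] [NormedSpace ℂ W] {m : ℕ}
    {P S : Set (ℝ × ℝ)} {F : ℝ × ℝ → W → W} (h : HFam P F) (c : ℝ × ℝ)
    (L : W ≃L[ℂ] (Fin m → ℂ)) (hS : ∀ ξ ∈ S, c + ξ ∈ P) :
    Fm S (fun ξ w => L (F (c + ξ) (L.symm w))) where
  cont := by
    have h1 : Continuous (fun x : (ℝ × ℝ) × (Fin m → ℂ) => (c + x.1, L.symm x.2)) :=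
      (continuous_const.add continuous_fst).prodMk (L.symm.continuous.comp continuous_snd)
    have h2 := h.cont.comp (s := S ×ˢ univ) h1.continuousOn
      (fun x hx => ⟨hS x.1 hx.1, mem_univ _⟩)
    exact L.continuous.comp_continuousOn h2
  hom ξ hξ a w := by
    rw [map_smul, h.hom _ (hS ξ hξ), map_smul]
  ne ξ hξ w hw := by
    intro h0
    have h1 : F (c + ξ) (L.symm w) = 0 := by
      have := congrArg L.symm h0
      simpa using this
    refine h.ne _ (hS ξ hξ) (L.symm w) ?_ h1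
    intro h2
    apply hw
    have := congrArg L h2
    simpa using this

theorem TOP : TOP_statement := by
  intro W _ _ _ c F hF hp1 hp2 r hr F' hF' φ μ hμ κ hκ hasy hrel
  have hκ' : 0 < ‖κ‖ := norm_pos_iff.2 hκ
  have hev := hasy.def (c := 1 / 4 * ‖κ‖) (by positivity)
  have h0 := hev.self_of_nhds
  have hφ : φ ≠ 0 := by
    rintro rfl
    simp at h0
    linarith
  obtain ⟨ρ, hρ, hb⟩ := Metric.eventually_nhds_iff.1 hev
  obtain ⟨k, hk⟩ : ∃ k, Module.finrank ℂ W = k + 1 := by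
    have : 0 < Module.finrank ℂ W := Module.finrank_pos_iff_exists_ne_zero.2 ⟨φ, hφ⟩
    exact ⟨Module.finrank ℂ W - 1, by omega⟩
  let L0 : W ≃L[ℂ] (Fin (k + 1) → ℂ) := ContinuousLinearEquiv.ofFinrankEq (by simp [hk])
  obtain ⟨A, hA⟩ := SeparatingDual.exists_continuousLinearEquiv_apply_eq (R := ℂ)
    (x := L0 φ) (y := f0 k) (by simpa using hφ) (cns_ne_left _ one_ne_zero)
  let L : W ≃L[ℂ] (Fin (k + 1) → ℂ) := L0.trans A
  have hL : L φ = f0 k := hA
  have hLs : L.symm (f0 k) = φ := by rw [← hL]; simp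
  set r' : ℝ := min r (min (1 / 2) (ρ / 2)) with hr'
  have hr'0 : 0 < r' := by positivity
  have hr'r : r' ≤ r := min_le_left _ _
  have hr'2 : r' ≤ 1 / 2 := (min_le_right _ _).trans (min_le_left _ _)
  have hr'ρ : r' < ρ := ((min_le_right _ _).trans (min_le_right _ _)).trans_lt (by linarith)
  have hin : ∀ ξ : ℝ × ℝ, ‖ξ‖ ≤ r' → c + ξ ∈ closedBall c r := by
    intro ξ hξ
    rw [mem_closedBall, dist_eq_norm, add_sub_cancel_left]
    exact hξ.trans hr'r
  refine top_core (k := k) (F := fun ξ w => L (F (c + ξ) (L.symm w)))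
    (F' := fun ξ w => L (F' (c + ξ) (L.symm w)))
    (μ := fun ξ => (μ (c + ξ)).comp (L.symm : (Fin (k + 1) → ℂ) →L[ℂ] W)) (r := r') (κ := κ)
    ?_ ?_ ?_ hr'0 hr'2 ?_ ?_ hκ ?_ ?_
  · refine hF.toFm c L ?_
    rintro ξ hξ ⟨m, n, h⟩
    apply hξ
    refine ⟨m, n, ?_⟩
    rw [zero_add]
    exact add_left_cancel h
  · intro ξ w
    rw [← add_assoc, hp1]
  · intro ξ w
    rw [← add_assoc, hp2]
  · refine hF'.toFm c L ?_
    intro ξ hξ
    exact hin ξ (mem_closedBall_zero_iff.1 hξ)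
  · have h1 : ContinuousOn (fun ξ : ℝ × ℝ => μ (c + ξ)) (closedBall 0 r') :=
      hμ.comp (by fun_prop) (fun ξ hξ => hin ξ (mem_closedBall_zero_iff.1 hξ))
    exact h1.clm_comp continuousOn_const
  · intro h hh
    have h1 := hb (y := h) (by rw [dist_zero_right, hh]; exact hr'ρ)
    rw [hh] at h1
    have h2 : ((μ (c + h)).comp (L.symm : (Fin (k + 1) → ℂ) →L[ℂ] W)) (f0 k) = μ (c + h) φ := by
      simp [hLs]
    rw [h2, cx]
    linarith
  · intro ξ hξ w
    have h1 : ξ ∉ Lat 0 := by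
      have h2 : |ξ.1| ≤ 1 / 2 := (norm_fst_le ξ).trans (hξ.le.trans hr'2)
      have h3 : |ξ.2| ≤ 1 / 2 := (norm_snd_le ξ).trans (hξ.le.trans hr'2)
      refine not_lat h2 h3 ?_
      intro h4
      have h5 : ξ = 0 := h4
      rw [h5, norm_zero] at hξ
      exact hr'0.ne hξ
    have h2 : c + ξ ∉ Lat c := by
      rintro ⟨m, n, h⟩
      apply h1
      refine ⟨m, n, ?_⟩
      rw [zero_add]
      exact add_left_cancel h
    have h3 := hrel (c + ξ) (hin ξ hξ.le) h2 (L.symm w)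
    rw [← h3, map_sub, map_smul, hLs]
    rfl

end Vale.Agent.P247.H931
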