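import Vale.Agent.P247.H931.Sta1

/-!
# Equivariant Fredholm Borsuk-Ulam theorem

`FBU2_statement`: the version of `FBU_statement` for operators between Hilbert bundles over the
two-torus given by commuting monodromies; no trivialisation is needed. The cokernel is described
by a functional.
-/

open Set Filter Topology Asymptotics

namespace Vale.Agent.P247.H931

/-- Fredholm Borsuk-Ulam theorem over the two-torus, equivariant form. -/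
def FBU2_statement : Prop :=
  ∀ (X Y : Type) [NormedAddCommGroup X] [InnerProductSpace ℂ X] [CompleteSpace X]
    [NormedAddCommGroup Y] [InnerProductSpace ℂ Y] [CompleteSpace Y]
    (U₁ U₂ : X ≃L[ℂ] X) (V₁ V₂ : Y ≃L[ℂ] Y),
    (∀ ψ, U₁ (U₂ ψ) = U₂ (U₁ ψ)) → (∀ y, V₁ (V₂ y) = V₂ (V₁ y)) →
    ∀ (D : ℝ → ℝ × ℝ → (X →L[ℂ] Y)),
    ContinuousOn (fun p : ℝ × (ℝ × ℝ) => D p.1 p.2) (Icc 0 1 ×ˢ univ) →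
    (∀ s ∈ Icc (0 : ℝ) 1, ∀ ξ ψ, D s (ξ + (1, 0)) (U₁ ψ) = V₁ (D s ξ ψ)) →
    (∀ s ∈ Icc (0 : ℝ) 1, ∀ ξ ψ, D s (ξ + (0, 1)) (U₂ ψ) = V₂ (D s ξ ψ)) →
    (∀ s ∈ Icc (0 : ℝ) 1, ∀ ξ, ∃ C > 0, ∃ j : X →L[ℂ] Y, IsCompactOperator j ∧
      ∀ ψ, ‖ψ‖ ≤ C * (‖D s ξ ψ‖ + ‖j ψ‖)) →
    ∀ (c : ℝ × ℝ), (∀ ξ ∉ Lat c, Function.Bijective (D 1 ξ)) →
    ∀ (ψ₀ : X) (ℓ : Y →L[ℂ] ℂ) (κ : ℂ), κ ≠ 0 →
    (∀ ψ, D 1 c ψ = 0 ↔ ∃ a : ℂ, ψ = a • ψ₀) →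
    (∀ y : Y, ℓ y = 0 ↔ ∃ ψ, D 1 c ψ = y) →
    ((fun h : ℝ × ℝ => ℓ (D 1 (c + h) ψ₀) - κ * ((h.1 : ℂ) + (h.2 : ℂ) * Complex.I))
      =o[𝓝 0] fun h => h) →
    ((fun h : ℝ × ℝ => D 1 (c + h) - D 1 c) =O[𝓝 0] fun h => h) →
    ∀ (K : ℝ × ℝ → X → Y), Continuous (fun p : (ℝ × ℝ) × X => K p.1 p.2) →
    (∀ ξ ψ, K (ξ + (1, 0)) (U₁ ψ) = V₁ (K ξ ψ)) → (∀ ξ ψ, K (ξ + (0, 1)) (U₂ ψ) = V₂ (K ξ ψ)) →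
    (∀ ξ (a : ℂ) ψ, K ξ (a • ψ) = a • K ξ ψ) →
    (∀ R : ℝ, ∃ S : Set Y, IsCompact S ∧ ∀ ξ ψ, ‖ξ‖ ≤ R → ‖ψ‖ ≤ R → K ξ ψ ∈ S) →
    ∃ ξ, ∃ ψ ≠ 0, D 0 ξ ψ + K ξ ψ = 0

/-- The finite dimensional core implies the equivariant Fredholm version. -/
def RED2_statement : Prop := TOP_statement → FBU2_statement

end Vale.Agent.P247.H931
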