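import Vale.Agent.P247.H931.Gen

/-!
Averaging over a circle action: equivariant locally Lipschitz approximation.
-/

namespace Vale.Agent.P247.H931

open Set Filter Topology Metric MeasureTheory Module
open scoped NNReal ENNReal

/-- Lipschitz on every ball -/
def LB {A C : Type*} [SeminormedAddCommGroup A] [SeminormedAddCommGroup C] (f : A → C) : Prop :=
  ∀ R : ℝ, ∃ K : ℝ≥0, LipschitzOnWith K f (closedBall 0 R)

theorem LB.ll {A C : Type*} [SeminormedAddCommGroup A] [SeminormedAddCommGroup C] {f : A → C}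
    (h : LB f) : LL f := by
  intro x
  obtain ⟨K, hK⟩ := h (‖x‖ + 1)
  refine ⟨K, closedBall 0 (‖x‖ + 1), ?_, hK⟩
  refine mem_of_superset (ball_mem_nhds x one_pos) fun y hy => ?_
  rw [mem_closedBall_zero_iff]
  rw [mem_ball_iff_norm] at hy
  calc ‖y‖ = ‖x + (y - x)‖ := by congr 1; abel
    _ ≤ ‖x‖ + ‖y - x‖ := norm_add_le _ _
    _ ≤ ‖x‖ + 1 := by linarith

theorem LB.continuous {A C : Type*} [SeminormedAddCommGroup A] [SeminormedAddCommGroup C]
    {f : A → C} (h : LB f) : Continuous f := by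
  rw [continuous_iff_continuousAt]
  intro x
  obtain ⟨K, t, ht, hK⟩ := h.ll x
  exact hK.continuousOn.continuousAt ht

theorem LB.of_contDiff {A C : Type*} [NormedAddCommGroup A] [NormedSpace ℝ A]
    [FiniteDimensional ℝ A] [NormedAddCommGroup C] [NormedSpace ℝ C] {f : A → C}
    (h : ContDiff ℝ 1 f) : LB f := by
  intro R
  have : ProperSpace A := FiniteDimensional.proper ℝ A
  have hc : Continuous (fderiv ℝ f) := h.continuous_fderiv one_ne_zero
  obtain ⟨C0, hC0⟩ := (isCompact_closedBall (0 : A) R).exists_bound_of_continuousOn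
    hc.continuousOn
  refine ⟨C0.toNNReal, ?_⟩
  refine Convex.lipschitzOnWith_of_nnnorm_fderiv_le (𝕜 := ℝ) (fun x _ =>
    (h.differentiable one_ne_zero).differentiableAt) (fun x hx => ?_) (convex_closedBall 0 R)
  rw [← NNReal.coe_le_coe, coe_nnnorm]
  exact (hC0 x hx).trans (Real.le_coe_toNNReal C0)

/-- a circle action by isometries together with a character -/
structure Act (A : Type*) [SeminormedAddCommGroup A] where
  r : ℝ → A → A
  c : ℝ → ℂ
  r_cont : Continuous fun x : ℝ × A => r x.1 x.2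
  c_cont : Continuous c
  r_add : ∀ s t x, r (s + t) x = r s (r t x)
  r_one : ∀ x, r 1 x = x
  r_dist : ∀ t x y, ‖r t x - r t y‖ = ‖x - y‖
  r_norm : ∀ t x, ‖r t x‖ = ‖x‖
  c_add : ∀ s t, c (s + t) = c s * c t
  c_one : c 1 = 1
  c_norm : ∀ t, ‖c t‖ = 1

namespace Act
variable {A C : Type*} [NormedAddCommGroup A] [NormedAddCommGroup C] [NormedSpace ℂ C]
  (a : Act A)

theorem c_zero : a.c 0 = 1 := by
  have h := a.c_add 0 0
  rw [add_zero] at h
  have h1 : a.c 0 ≠ 0 := by
    intro h0
    have := a.c_norm 0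
    rw [h0, norm_zero] at this
    exact zero_ne_one this
  exact mul_left_cancel₀ h1 (h.symm.trans (mul_one _).symm)

theorem c_neg (s : ℝ) : a.c (-s) * a.c s = 1 := by
  rw [← a.c_add, neg_add_cancel, a.c_zero]

/-- average -/
noncomputable def avg (g : A → C) (x : A) : C := ∫ t in (0 : ℝ)..1, a.c t • g (a.r t x)

theorem integrable {g : A → C} (hg : Continuous g) (x : A) (s t : ℝ) :
    IntervalIntegrable (fun t => a.c t • g (a.r t x)) volume s t := by
  apply Continuous.intervalIntegrable
  refine a.c_cont.smul (hg.comp ?_)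
  exact a.r_cont.comp (continuous_id.prodMk continuous_const)

theorem avg_r {g : A → C} (s : ℝ) (x : A) : a.avg g (a.r s x) = a.c (-s) • a.avg g x := by
  unfold avg
  have h1 : ∀ t, a.c t • g (a.r t (a.r s x)) = a.c (-s) • (a.c (t + s) • g (a.r (t + s) x)) := by
    intro t
    rw [a.r_add, a.c_add, smul_smul]
    congr 1
    have := a.c_neg s
    calc a.c t = a.c t * (a.c (-s) * a.c s) := by rw [this, mul_one]
      _ = a.c (-s) * (a.c t * a.c s) := by ring
  simp only [h1]
  rw [intervalIntegral.integral_smul]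
  congr 1
  rw [intervalIntegral.integral_comp_add_right (fun t => a.c t • g (a.r t x)) s]
  have hp : Function.Periodic (fun t => a.c t • g (a.r t x)) 1 := by
    intro t
    simp only
    rw [a.c_add, a.r_add, a.r_one, a.c_one, mul_one]
  have := hp.intervalIntegral_add_eq s 0
  rw [zero_add] at this
  rw [zero_add, add_comm 1 s]
  exact this

theorem avg_LB {g : A → C} (hg : LB g) : LB (a.avg g) := by
  intro R
  obtain ⟨K, hK⟩ := hg R
  refine ⟨K, ?_⟩
  apply LipschitzOnWith.of_dist_le_mul
  intro x hx y hy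
  rw [dist_eq_norm, dist_eq_norm, avg, avg, ← intervalIntegral.integral_sub
    (a.integrable hg.continuous x 0 1) (a.integrable hg.continuous y 0 1)]
  have h1 : ∀ t ∈ Set.uIoc (0 : ℝ) 1, ‖a.c t • g (a.r t x) - a.c t • g (a.r t y)‖ ≤
      K * ‖x - y‖ := by
    intro t _
    rw [← smul_sub, norm_smul, a.c_norm, one_mul]
    have hx' : a.r t x ∈ closedBall (0 : A) R := by
      rw [mem_closedBall_zero_iff, a.r_norm]; exact mem_closedBall_zero_iff.1 hx
    have hy' : a.r t y ∈ closedBall (0 : A) R := by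
      rw [mem_closedBall_zero_iff, a.r_norm]; exact mem_closedBall_zero_iff.1 hy
    have := hK.dist_le_mul _ hx' _ hy'
    rwa [dist_eq_norm, dist_eq_norm, a.r_dist] at this
  have := intervalIntegral.norm_integral_le_of_norm_le_const h1
  simpa using this

theorem avg_dist [CompleteSpace C] {g f : A → C} (hg : Continuous g) (hf : Continuous f) {ε : ℝ}
    (hgf : ∀ x, ‖g x - f x‖ ≤ ε) (hfe : ∀ s x, f (a.r s x) = a.c (-s) • f x) (x : A) :
    ‖a.avg g x - f x‖ ≤ ε := by
  have h1 : f x = ∫ t in (0 : ℝ)..1, a.c t • f (a.r t x) := by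
    have : ∀ t, a.c t • f (a.r t x) = f x := by
      intro t
      rw [hfe, smul_smul, mul_comm, a.c_neg, one_smul]
    simp [this]
  rw [h1, avg, ← intervalIntegral.integral_sub (a.integrable hg x 0 1)
    (a.integrable hf x 0 1)]
  have h2 : ∀ t ∈ Set.uIoc (0 : ℝ) 1, ‖a.c t • g (a.r t x) - a.c t • f (a.r t x)‖ ≤ ε := by
    intro t _
    rw [← smul_sub, norm_smul, a.c_norm, one_mul]
    exact hgf _
  have := intervalIntegral.norm_integral_le_of_norm_le_const h2
  simpa using this

theorem avg_comm {g : A → C} (σ : A → A) (d : ℂ) (hσ : ∀ t x, a.r t (σ x) = σ (a.r t x))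
    (hg : ∀ x, g (σ x) = d • g x) (x : A) : a.avg g (σ x) = d • a.avg g x := by
  unfold avg
  rw [← intervalIntegral.integral_smul]
  congr 1
  ext t
  rw [hσ, hg, smul_comm]

end Act

end Vale.Agent.P247.H931
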