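import Vale.Agent.P247.H931.BU

/-!
Clutching: two disc families glued along the circle by `diag (p, 1, ..., 1)` do not exist.
-/

namespace Vale.Agent.P247.H931

open Set Filter Topology Metric

theorem homog_cont' {T E Y : Type*} [TopologicalSpace T] [NormedAddCommGroup E] [NormedSpace ℝ E]
    [ProperSpace E] [NormedAddCommGroup Y] [NormedSpace ℝ Y] (F : E × T → Y)
    (h0 : ∀ t, F (0, t) = 0) (hF : ∀ t (r : ℝ) e, 0 < r → F (r • e, t) = r • F (e, t))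
    (hc : ContinuousOn F {x | x.1 ≠ 0}) : Continuous F := by
  have h1 : ContinuousOn (fun x : T × E => F (x.2, x.1)) {x | x.2 ≠ 0} :=
    hc.comp continuous_swap.continuousOn (fun x hx => hx)
  have h2 : Continuous (fun x : T × E => F (x.2, x.1)) :=
    homog_cont (fun t e => F (e, t)) h0 hF h1
  exact h2.comp continuous_swap

theorem glue_on {X Y : Type*} [TopologicalSpace X] [TopologicalSpace Y] {U A B : Set X}
    (hA : IsClosed A) (hB : IsClosed B) (hU : U ⊆ A ∪ B) {f g h : X → Y}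
    (hf : ContinuousOn f (U ∩ A)) (hg : ContinuousOn g (U ∩ B))
    (hfA : ∀ x ∈ U ∩ A, h x = f x) (hgB : ∀ x ∈ U ∩ B, h x = g x) : ContinuousOn h U := by
  have h1 : ContinuousOn h (U ∩ A) := hf.congr hfA
  have h2 : ContinuousOn h (U ∩ B) := hg.congr hgB
  intro x hx
  have h3 : U = (U ∩ A) ∪ (U ∩ B) := by
    rw [← inter_union_distrib_left]
    exact (inter_eq_left.2 hU).symm
  rw [h3]
  refine ContinuousWithinAt.union ?_ ?_
  · by_cases hxA : x ∈ A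
    · exact h1 x ⟨hx, hxA⟩
    · apply continuousWithinAt_of_notMem_closure
      intro hc
      exact hxA (hA.closure_subset_iff.2 inter_subset_right hc)
  · by_cases hxB : x ∈ B
    · exact h2 x ⟨hx, hxB⟩
    · apply continuousWithinAt_of_notMem_closure
      intro hc
      exact hxB (hB.closure_subset_iff.2 inter_subset_right hc)

/-- A family of homogeneous nowhere zero self maps of `W` over a set `P`. -/
structure Fm {P W : Type*} [TopologicalSpace P] [NormedAddCommGroup W] [NormedSpace ℂ W]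
    (S : Set P) (Φ : P → W → W) : Prop where
  cont : ContinuousOn (fun x : P × W => Φ x.1 x.2) (S ×ˢ univ)
  hom : ∀ p ∈ S, ∀ (c : ℂ) (w : W), Φ p (c • w) = c • Φ p w
  ne : ∀ p ∈ S, ∀ w : W, w ≠ 0 → Φ p w ≠ 0

/-- adding a first coordinate -/
def cns {k : ℕ} (z : ℂ) (e : Fin k → ℂ) : Fin (k + 1) → ℂ := Fin.cons z e

theorem cns_smul {k : ℕ} (c z : ℂ) (e : Fin k → ℂ) : cns (c * z) (c • e) = c • cns z e := by
  ext i
  refine Fin.cases ?_ (fun j => ?_) i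
  · simp [cns]
  · simp [cns]

theorem cns_zero_smul {k : ℕ} (c : ℂ) (e : Fin k → ℂ) : cns 0 (c • e) = c • cns 0 e := by
  have := cns_smul c 0 e
  rwa [mul_zero] at this

theorem cns_continuous {k : ℕ} : Continuous (fun x : ℂ × (Fin k → ℂ) => cns x.1 x.2) := by
  refine continuous_pi fun i => ?_
  refine Fin.cases ?_ (fun j => ?_) i
  · simp only [cns, Fin.cons_zero]; exact continuous_fst
  · simp only [cns, Fin.cons_succ]; fun_prop

theorem cns_ne_left {k : ℕ} {z : ℂ} (e : Fin k → ℂ) (hz : z ≠ 0) : cns z e ≠ 0 := by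
  intro h
  exact hz (by have := congrFun h 0; simpa [cns] using this)

theorem cns_ne_right {k : ℕ} (z : ℂ) {e : Fin k → ℂ} (he : e ≠ 0) : cns z e ≠ 0 := by
  intro h
  apply he
  ext i
  have := congrFun h i.succ
  simpa [cns] using this

theorem norm_cns_le {k : ℕ} {z : ℂ} {e : Fin k → ℂ} {r : ℝ} (hr : 0 ≤ r) (hz : ‖z‖ ≤ r)
    (he : ‖e‖ ≤ r) : ‖cns z e‖ ≤ r := by
  rw [pi_norm_le_iff_of_nonneg hr]
  intro i
  refine Fin.cases ?_ (fun j => ?_) i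
  · simpa [cns] using hz
  · simpa [cns] using (norm_le_pi_norm e j).trans he

theorem norm_cns_sub {k : ℕ} (z z' : ℂ) (e : Fin k → ℂ) : ‖cns z e - cns z' e‖ ≤ ‖z - z'‖ := by
  rw [pi_norm_le_iff_of_nonneg (norm_nonneg _)]
  intro i
  refine Fin.cases ?_ (fun j => ?_) i
  · simp [cns]
  · simp [cns]

theorem Fm.unif {m : ℕ} {Φ : ℂ → (Fin m → ℂ) → (Fin m → ℂ)}
    (h : Fm (closedBall (0 : ℂ) 1) Φ) {ε : ℝ} (hε : 0 < ε) :
    ∃ δ > 0, ∀ p ∈ closedBall (0 : ℂ) 1, ∀ w w', ‖w‖ ≤ 1 → ‖w'‖ ≤ 1 → ‖w - w'‖ ≤ δ →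
      ‖Φ p w - Φ p w'‖ ≤ ε := by
  have hK : IsCompact (closedBall (0 : ℂ) 1 ×ˢ closedBall (0 : Fin m → ℂ) 1) :=
    (isCompact_closedBall _ _).prod (isCompact_closedBall _ _)
  have hu := hK.uniformContinuousOn_of_continuous
    (h.cont.mono (prod_mono_right (subset_univ _)))
  rw [Metric.uniformContinuousOn_iff] at hu
  obtain ⟨δ, hδ, hd⟩ := hu ε hε
  refine ⟨δ / 2, half_pos hδ, fun p hp w w' hw hw' hww => ?_⟩
  have := hd (p, w) ⟨hp, mem_closedBall_zero_iff.2 hw⟩ (p, w') ⟨hp, mem_closedBall_zero_iff.2 hw'⟩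
    (by
      rw [Prod.dist_eq, dist_self, dist_eq_norm, max_eq_right (norm_nonneg _)]
      linarith)
  rw [dist_eq_norm] at this
  exact this.le

theorem div_mem {a b : ℂ} (h : ‖a‖ ≤ ‖b‖) : a / b ∈ closedBall (0 : ℂ) 1 := by
  rw [mem_closedBall_zero_iff, norm_div]
  exact div_le_one_of_le₀ h (norm_nonneg _)

section
variable {k : ℕ} (Φi Φo : ℂ → (Fin (k + 1) → ℂ) → (Fin (k + 1) → ℂ))

open Classical in
/-- clutched map; the parameter `τ` multiplies the first coordinate -/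
noncomputable def clu (τ : ℂ) (x : (Fin 2 → ℂ) × (Fin k → ℂ)) : Fin (k + 1) → ℂ :=
  if ‖x.1 1‖ ≤ ‖x.1 0‖ then Φi (x.1 1 / x.1 0) (cns (τ * x.1 0) x.2)
  else Φo (x.1 0 / x.1 1) (cns (τ * x.1 1) x.2)

variable {Φi Φo}

theorem clu_left {τ : ℂ} {x : (Fin 2 → ℂ) × (Fin k → ℂ)} (h : ‖x.1 1‖ ≤ ‖x.1 0‖) :
    clu Φi Φo τ x = Φi (x.1 1 / x.1 0) (cns (τ * x.1 0) x.2) := by simp [clu, h]

theorem clu_right
    (hg : ∀ p : ℂ, ‖p‖ = 1 → ∀ z e, Φi p (cns z e) = Φo (starRingEnd ℂ p) (cns (p * z) e))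
    {τ : ℂ} {x : (Fin 2 → ℂ) × (Fin k → ℂ)} (hx : x.1 ≠ 0) (h : ‖x.1 0‖ ≤ ‖x.1 1‖) :
    clu Φi Φo τ x = Φo (x.1 0 / x.1 1) (cns (τ * x.1 1) x.2) := by
  by_cases h' : ‖x.1 1‖ ≤ ‖x.1 0‖
  · rw [clu_left h']
    have heq : ‖x.1 0‖ = ‖x.1 1‖ := le_antisymm h h'
    have h0 : x.1 0 ≠ 0 := by
      intro h0
      apply hx
      rw [h0, norm_zero] at heq
      have h1 : x.1 1 = 0 := norm_eq_zero.1 heq.symm
      ext i
      fin_cases i
      · exact h0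
      · exact h1
    have h1 : x.1 1 ≠ 0 := by
      intro h1
      rw [h1, norm_zero] at heq
      exact h0 (norm_eq_zero.1 heq)
    have hp : ‖x.1 1 / x.1 0‖ = 1 := by
      rw [norm_div, heq, div_self (norm_ne_zero_iff.2 h1)]
    rw [hg _ hp]
    have e1 : starRingEnd ℂ (x.1 1 / x.1 0) = x.1 0 / x.1 1 := by
      have h2 : (x.1 1 / x.1 0) * starRingEnd ℂ (x.1 1 / x.1 0) = 1 := by
        rw [Complex.mul_conj, Complex.normSq_eq_norm_sq, hp]; simp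
      rw [eq_inv_of_mul_eq_one_right h2, inv_div]
    rw [e1]
    congr 2
    field_simp
  · simp [clu, h']

theorem clu_cont (hi : Fm (closedBall (0 : ℂ) 1) Φi) (ho : Fm (closedBall (0 : ℂ) 1) Φo)
    (hg : ∀ p : ℂ, ‖p‖ = 1 → ∀ z e, Φi p (cns z e) = Φo (starRingEnd ℂ p) (cns (p * z) e))
    (τ : ℂ) : ContinuousOn (clu Φi Φo τ) {x | x.1 ≠ 0} := by
  have n0 : Continuous (fun x : (Fin 2 → ℂ) × (Fin k → ℂ) => x.1 0) := by fun_prop
  have n1 : Continuous (fun x : (Fin 2 → ℂ) × (Fin k → ℂ) => x.1 1) := by fun_prop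
  have hA : IsClosed {x : (Fin 2 → ℂ) × (Fin k → ℂ) | ‖x.1 1‖ ≤ ‖x.1 0‖} :=
    isClosed_le n1.norm n0.norm
  have hB : IsClosed {x : (Fin 2 → ℂ) × (Fin k → ℂ) | ‖x.1 0‖ ≤ ‖x.1 1‖} :=
    isClosed_le n0.norm n1.norm
  refine glue_on hA hB (fun x _ => ?_)
    (f := fun x => Φi (x.1 1 / x.1 0) (cns (τ * x.1 0) x.2))
    (g := fun x => Φo (x.1 0 / x.1 1) (cns (τ * x.1 1) x.2)) ?_ ?_ ?_ ?_
  · exact le_total ‖x.1 1‖ ‖x.1 0‖
  · have c1 : ContinuousOn (fun x : (Fin 2 → ℂ) × (Fin k → ℂ) =>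
        (x.1 1 / x.1 0, cns (τ * x.1 0) x.2)) ({x | x.1 ≠ 0} ∩ {x | ‖x.1 1‖ ≤ ‖x.1 0‖}) := by
      refine ContinuousOn.prodMk (ContinuousOn.div n1.continuousOn n0.continuousOn ?_) ?_
      · rintro x ⟨hx, hx'⟩ h0
        apply hx
        replace hx' := (norm_le_zero_iff.1 ((show _ ≤ _ from hx').trans_eq
          (by rw [h0, norm_zero])))
        ext i
        fin_cases i
        · exact h0
        · exact hx'
      · exact (cns_continuous.comp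
          ((continuous_const.mul n0).prodMk continuous_snd)).continuousOn
    exact hi.cont.comp c1 (fun x hx => ⟨div_mem hx.2, mem_univ _⟩)
  · have c1 : ContinuousOn (fun x : (Fin 2 → ℂ) × (Fin k → ℂ) =>
        (x.1 0 / x.1 1, cns (τ * x.1 1) x.2)) ({x | x.1 ≠ 0} ∩ {x | ‖x.1 0‖ ≤ ‖x.1 1‖}) := by
      refine ContinuousOn.prodMk (ContinuousOn.div n0.continuousOn n1.continuousOn ?_) ?_
      · rintro x ⟨hx, hx'⟩ h0
        apply hx
        replace hx' := (norm_le_zero_iff.1 ((show _ ≤ _ from hx').trans_eq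
          (by rw [h0, norm_zero])))
        ext i
        fin_cases i
        · exact hx'
        · exact h0
      · exact (cns_continuous.comp
          ((continuous_const.mul n1).prodMk continuous_snd)).continuousOn
    exact ho.cont.comp c1 (fun x hx => ⟨div_mem hx.2, mem_univ _⟩)
  · rintro x ⟨_, hx⟩
    exact clu_left hx
  · rintro x ⟨hx0, hx⟩
    exact clu_right hg hx0 hx

theorem clu_hom (hi : Fm (closedBall (0 : ℂ) 1) Φi) (ho : Fm (closedBall (0 : ℂ) 1) Φo)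
    (ζ : Fin 2 → ℂ) (e : Fin k → ℂ) (c : ℂ) (hc : c ≠ 0) :
    clu Φi Φo 1 (c • ζ, c • e) = c • clu Φi Φo 1 (ζ, e) := by
  have hcn : 0 < ‖c‖ := norm_pos_iff.2 hc
  by_cases h : ‖ζ 1‖ ≤ ‖ζ 0‖
  · have h' : ‖(c • ζ) 1‖ ≤ ‖(c • ζ) 0‖ := by
      simp only [Pi.smul_apply, norm_smul]
      exact mul_le_mul_of_nonneg_left h hcn.le
    rw [clu_left (x := (ζ, e)) h, clu_left (x := (c • ζ, c • e)) h', ← hi.hom _ (div_mem h)]
    simp only [Pi.smul_apply, smul_eq_mul, one_mul]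
    rw [cns_smul, mul_div_mul_left _ _ hc]
  · have h' : ¬ ‖(c • ζ) 1‖ ≤ ‖(c • ζ) 0‖ := by
      simp only [Pi.smul_apply, norm_smul]
      intro h2
      exact h (le_of_mul_le_mul_left h2 hcn)
    have h3 : ‖ζ 0‖ ≤ ‖ζ 1‖ := (not_le.1 h).le
    simp only [clu, h, h', if_false]
    rw [← ho.hom _ (div_mem h3)]
    simp only [Pi.smul_apply, smul_eq_mul, one_mul]
    rw [cns_smul, mul_div_mul_left _ _ hc]

theorem clu_ne (hi : Fm (closedBall (0 : ℂ) 1) Φi) (ho : Fm (closedBall (0 : ℂ) 1) Φo)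
    (ζ : Fin 2 → ℂ) (e : Fin k → ℂ) (hζ : ζ ≠ 0) : clu Φi Φo 1 (ζ, e) ≠ 0 := by
  by_cases h : ‖ζ 1‖ ≤ ‖ζ 0‖
  · rw [clu_left (x := (ζ, e)) h]
    refine hi.ne _ (div_mem h) _ (cns_ne_left _ ?_)
    simp only [one_mul]
    intro h0
    rw [h0, norm_zero, norm_le_zero_iff] at h
    apply hζ
    ext i
    fin_cases i
    · exact h0
    · exact h
  · have h3 : ‖ζ 0‖ ≤ ‖ζ 1‖ := (not_le.1 h).le
    simp only [clu, h, if_false]
    refine ho.ne _ (div_mem h3) _ (cns_ne_left _ ?_)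
    simp only [one_mul]
    intro h0
    rw [h0, norm_zero] at h
    exact h (norm_nonneg _)

/-- the limit map, multiplied by the norm of ζ -/
noncomputable def chi (Φi Φo : ℂ → (Fin (k + 1) → ℂ) → (Fin (k + 1) → ℂ))
    (x : (Fin 2 → ℂ) × (Fin k → ℂ)) : Fin (k + 1) → ℂ :=
  ((‖x.1‖ : ℝ) : ℂ) • clu Φi Φo 0 x

theorem clu0_smul (ζ : Fin 2 → ℂ) (e : Fin k → ℂ) (c : ℂ) (hc : c ≠ 0) :
    clu Φi Φo 0 (c • ζ, e) = clu Φi Φo 0 (ζ, e) := by
  have hcn : 0 < ‖c‖ := norm_pos_iff.2 hc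
  by_cases h : ‖ζ 1‖ ≤ ‖ζ 0‖
  · have h' : ‖(c • ζ) 1‖ ≤ ‖(c • ζ) 0‖ := by
      simp only [Pi.smul_apply, norm_smul]
      exact mul_le_mul_of_nonneg_left h hcn.le
    rw [clu_left (x := (ζ, e)) h, clu_left (x := (c • ζ, e)) h']
    simp only [Pi.smul_apply, smul_eq_mul, zero_mul]
    rw [mul_div_mul_left _ _ hc]
  · have h' : ¬ ‖(c • ζ) 1‖ ≤ ‖(c • ζ) 0‖ := by
      simp only [Pi.smul_apply, norm_smul]
      intro h2
      exact h (le_of_mul_le_mul_left h2 hcn)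
    simp only [clu, h, h', if_false]
    simp only [Pi.smul_apply, smul_eq_mul, zero_mul]
    rw [mul_div_mul_left _ _ hc]

theorem clu0_hom (hi : Fm (closedBall (0 : ℂ) 1) Φi) (ho : Fm (closedBall (0 : ℂ) 1) Φo)
    (ζ : Fin 2 → ℂ) (e : Fin k → ℂ) (c : ℂ) :
    clu Φi Φo 0 (ζ, c • e) = c • clu Φi Φo 0 (ζ, e) := by
  by_cases h : ‖ζ 1‖ ≤ ‖ζ 0‖
  · rw [clu_left (x := (ζ, e)) h, clu_left (x := (ζ, c • e)) h, ← hi.hom _ (div_mem h)]
    simp only [zero_mul]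
    rw [cns_zero_smul]
  · have h3 : ‖ζ 0‖ ≤ ‖ζ 1‖ := (not_le.1 h).le
    simp only [clu, h, if_false]
    rw [← ho.hom _ (div_mem h3)]
    simp only [zero_mul]
    rw [cns_zero_smul]

theorem clu0_ne (hi : Fm (closedBall (0 : ℂ) 1) Φi) (ho : Fm (closedBall (0 : ℂ) 1) Φo)
    (ζ : Fin 2 → ℂ) (e : Fin k → ℂ) (he : e ≠ 0) : clu Φi Φo 0 (ζ, e) ≠ 0 := by
  by_cases h : ‖ζ 1‖ ≤ ‖ζ 0‖
  · rw [clu_left (x := (ζ, e)) h]
    exact hi.ne _ (div_mem h) _ (cns_ne_right _ he)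
  · have h3 : ‖ζ 0‖ ≤ ‖ζ 1‖ := (not_le.1 h).le
    simp only [clu, h, if_false]
    exact ho.ne _ (div_mem h3) _ (cns_ne_right _ he)

theorem chi_smul (t : Fin k → ℂ) (r : ℝ) (ζ : Fin 2 → ℂ) (hr : 0 < r) :
    chi Φi Φo (r • ζ, t) = r • chi Φi Φo (ζ, t) := by
  have e1 : (r • ζ : Fin 2 → ℂ) = ((r : ℝ) : ℂ) • ζ := (Complex.coe_smul r ζ).symm
  have hr' : ((r : ℝ) : ℂ) ≠ 0 := by rw [Complex.ofReal_ne_zero]; exact hr.ne'
  have e2 : r • chi Φi Φo (ζ, t) = ((r : ℝ) : ℂ) • chi Φi Φo (ζ, t) :=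
    (Complex.coe_smul r _).symm
  rw [e1, e2]
  simp only [chi]
  rw [clu0_smul _ _ _ hr', norm_smul, Complex.norm_real, Real.norm_of_nonneg hr.le, smul_smul]
  push_cast
  rfl

theorem chi_contOn (hi : Fm (closedBall (0 : ℂ) 1) Φi) (ho : Fm (closedBall (0 : ℂ) 1) Φo)
    (hg : ∀ p : ℂ, ‖p‖ = 1 → ∀ z e, Φi p (cns z e) = Φo (starRingEnd ℂ p) (cns (p * z) e)) :
    ContinuousOn (chi Φi Φo) {x | x.1 ≠ 0} := by
  have c1 := clu_cont hi ho hg 0
  have c3 : Continuous (fun x : (Fin 2 → ℂ) × (Fin k → ℂ) => ((‖x.1‖ : ℝ) : ℂ)) :=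
    Complex.continuous_ofReal.comp (continuous_norm.comp continuous_fst)
  exact c3.continuousOn.smul c1

theorem chi_cont (hi : Fm (closedBall (0 : ℂ) 1) Φi) (ho : Fm (closedBall (0 : ℂ) 1) Φo)
    (hg : ∀ p : ℂ, ‖p‖ = 1 → ∀ z e, Φi p (cns z e) = Φo (starRingEnd ℂ p) (cns (p * z) e)) :
    Continuous (chi Φi Φo) :=
  homog_cont' (chi Φi Φo) (fun t => by simp [chi]) chi_smul (chi_contOn hi ho hg)

theorem clutch (hi : Fm (closedBall (0 : ℂ) 1) Φi) (ho : Fm (closedBall (0 : ℂ) 1) Φo)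
    (hg : ∀ p : ℂ, ‖p‖ = 1 → ∀ z e, Φi p (cns z e) = Φo (starRingEnd ℂ p) (cns (p * z) e)) :
    False := by
  refine BU_core (clu Φi Φo 1) (clu_cont hi ho hg 1) (clu_hom hi ho) (clu_ne hi ho)
    (chi Φi Φo) (chi_cont hi ho hg) ?_ ?_ ?_ ?_
  · intro ζ e c hc
    have hc0 : c ≠ 0 := by rintro rfl; simp at hc
    simp only [chi]
    rw [clu0_smul _ _ _ hc0, norm_smul, hc, one_mul]
  · intro ζ e c
    simp only [chi]
    rw [clu0_hom hi ho, smul_comm]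
  · intro ζ e hζ he
    simp only [chi]
    rw [hζ, Complex.ofReal_one, one_smul]
    exact clu0_ne hi ho ζ e he
  · intro ε hε
    obtain ⟨δ1, hδ1, h1⟩ := hi.unif hε
    obtain ⟨δ2, hδ2, h2⟩ := ho.unif hε
    refine ⟨min 1 (min δ1 δ2), by positivity, fun ζ e hζ he t ht htδ => ?_⟩
    have ht1 : t ≤ 1 := htδ.trans (min_le_left _ _)
    have htd1 : t ≤ δ1 := htδ.trans ((min_le_right _ _).trans (min_le_left _ _))
    have htd2 : t ≤ δ2 := htδ.trans ((min_le_right _ _).trans (min_le_right _ _))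
    have ht0 : ((t : ℝ) : ℂ) ≠ 0 := by rw [Complex.ofReal_ne_zero]; exact ht.ne'
    have hni : ∀ i, ‖((t : ℝ) : ℂ) * ζ i‖ ≤ t := by
      intro i
      rw [norm_mul, Complex.norm_real, Real.norm_of_nonneg ht.le]
      calc t * ‖ζ i‖ ≤ t * 1 := by
            apply mul_le_mul_of_nonneg_left _ ht.le
            rw [← hζ]; exact norm_le_pi_norm ζ i
        _ = t := mul_one t
    simp only [chi]
    rw [hζ, Complex.ofReal_one, one_smul]
    by_cases h : ‖ζ 1‖ ≤ ‖ζ 0‖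
    · have h' : ‖(((t : ℝ) : ℂ) • ζ) 1‖ ≤ ‖(((t : ℝ) : ℂ) • ζ) 0‖ := by
        simp only [Pi.smul_apply, norm_smul]
        exact mul_le_mul_of_nonneg_left h (norm_nonneg _)
      rw [clu_left (x := (ζ, e)) h, clu_left (x := (((t : ℝ) : ℂ) • ζ, e)) h']
      simp only [Pi.smul_apply, smul_eq_mul, zero_mul, one_mul]
      rw [mul_div_mul_left _ _ ht0]
      refine h1 _ (div_mem h) _ _ (norm_cns_le zero_le_one ((hni 0).trans ht1) he.le)
        (norm_cns_le zero_le_one (by simp) he.le) ((norm_cns_sub _ _ _).trans ?_)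
      rw [sub_zero]
      exact (hni 0).trans htd1
    · have h' : ¬ ‖(((t : ℝ) : ℂ) • ζ) 1‖ ≤ ‖(((t : ℝ) : ℂ) • ζ) 0‖ := by
        simp only [Pi.smul_apply, norm_smul]
        intro h2
        exact h (le_of_mul_le_mul_left h2 (norm_pos_iff.2 ht0))
      have h3 : ‖ζ 0‖ ≤ ‖ζ 1‖ := (not_le.1 h).le
      simp only [clu, h, h', if_false]
      simp only [Pi.smul_apply, smul_eq_mul, zero_mul, one_mul]
      rw [mul_div_mul_left _ _ ht0]
      refine h2 _ (div_mem h3) _ _ (norm_cns_le zero_le_one ((hni 1).trans ht1) he.le)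
        (norm_cns_le zero_le_one (by simp) he.le) ((norm_cns_sub _ _ _).trans ?_)
      rw [sub_zero]
      exact (hni 1).trans htd2

end

end Vale.Agent.P247.H931
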