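import Mathlib.Topology.MetricSpace.HausdorffDimension
import Mathlib.Geometry.Manifold.SmoothApprox
import Mathlib.MeasureTheory.Integral.IntervalIntegral.Periodic
import Mathlib.Analysis.Calculus.MeanValue
import Mathlib.Analysis.Complex.Basic
import Mathlib.LinearAlgebra.Complex.FiniteDimensional

/-!
Generic linear maps: the set of linear maps `B` which meet a low dimensional family of
S^1-equivariant locally Lipschitz maps has small Hausdorff dimension.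
-/

namespace Vale.Agent.P247.H931

open Set Filter Topology Metric MeasureTheory Module
open scoped NNReal ENNReal

/-- application of a tuple of columns -/
noncomputable def app {k : ℕ} {Y : Type*} [NormedAddCommGroup Y] [NormedSpace ℂ Y]
    (B : Fin k → Y) (e : Fin k → ℂ) : Y := ∑ i, e i • B i

section app
variable {k : ℕ} {Y : Type*} [NormedAddCommGroup Y] [NormedSpace ℂ Y]

theorem app_smul (B : Fin k → Y) (c : ℂ) (e : Fin k → ℂ) : app B (c • e) = c • app B e := by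
  simp [app, Finset.smul_sum, smul_smul]

theorem app_add (B : Fin k → Y) (e e' : Fin k → ℂ) : app B (e + e') = app B e + app B e' := by
  simp [app, add_smul, Finset.sum_add_distrib]

theorem continuous_app (B : Fin k → Y) : Continuous (app B) := by
  unfold app; fun_prop

theorem app_zero (B : Fin k → Y) : app B 0 = 0 := by simp [app]

end app

/-- locally Lipschitz -/
def LL {A C : Type*} [PseudoEMetricSpace A] [PseudoEMetricSpace C] (f : A → C) : Prop :=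
  ∀ x : A, ∃ K : ℝ≥0, ∃ t ∈ 𝓝 x, LipschitzOnWith K f t

theorem LL.of_lipschitz {A C : Type*} [PseudoEMetricSpace A] [PseudoEMetricSpace C] {f : A → C}
    {K : ℝ≥0} (h : LipschitzWith K f) : LL f := fun _ => ⟨K, univ, univ_mem, h.lipschitzOnWith⟩

theorem LL.comp {A C D : Type*} [PseudoEMetricSpace A] [PseudoEMetricSpace C]
    [PseudoEMetricSpace D] {g : C → D} {f : A → C} (hg : LL g) (hf : LL f) : LL (g ∘ f) := by
  intro x
  obtain ⟨K1, t1, ht1, h1⟩ := hf x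
  obtain ⟨K2, t2, ht2, h2⟩ := hg (f x)
  have hc : ContinuousAt f x := h1.continuousOn.continuousAt ht1
  refine ⟨K2 * K1, t1 ∩ f ⁻¹' t2, inter_mem ht1 (hc ht2), ?_⟩
  exact h2.comp (h1.mono inter_subset_left) (fun y hy => hy.2)

theorem LL.of_contDiff {A C : Type*} [NormedAddCommGroup A] [NormedSpace ℝ A]
    [NormedAddCommGroup C] [NormedSpace ℝ C] {f : A → C} (h : ContDiff ℝ 1 f) : LL f :=
  fun x => h.contDiffAt.exists_lipschitzOnWith

theorem LL.prodMk {A C D : Type*} [PseudoEMetricSpace A] [PseudoEMetricSpace C]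
    [PseudoEMetricSpace D] {g : A → D} {f : A → C} (hf : LL f) (hg : LL g) :
    LL (fun x => (f x, g x)) := by
  intro x
  obtain ⟨K1, t1, ht1, h1⟩ := hf x
  obtain ⟨K2, t2, ht2, h2⟩ := hg x
  refine ⟨max K1 K2, t1 ∩ t2, inter_mem ht1 ht2, ?_⟩
  exact (h1.mono inter_subset_left).prodMk (h2.mono inter_subset_right)

theorem exists_norm_eq {k : ℕ} (e : Fin (k + 1) → ℂ) : ∃ j, ‖e j‖ = ‖e‖ := by
  obtain ⟨j, -, hj⟩ := Finset.exists_max_image (Finset.univ : Finset (Fin (k + 1)))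
    (fun j => ‖e j‖) Finset.univ_nonempty
  refine ⟨j, le_antisymm (norm_le_pi_norm e j) ?_⟩
  exact (pi_norm_le_iff_of_nonneg (norm_nonneg _)).2 fun i => hj i (Finset.mem_univ i)

theorem contDiff_insertNth {k : ℕ} {Y : Type*} [NormedAddCommGroup Y] [NormedSpace ℝ Y]
    (j : Fin (k + 1)) :
    ContDiff ℝ 1 (fun x : Y × (Fin k → Y) => (Fin.insertNth j x.1 x.2 : Fin (k + 1) → Y)) := by
  rw [contDiff_pi]
  intro i
  refine Fin.succAboveCases j ?_ (fun i' => ?_) i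
  · simpa using contDiff_fst
  · simp only [Fin.insertNth_apply_succAbove]
    fun_prop

theorem contDiff_aux0 {k m : ℕ} :
    ContDiff ℝ 1 (fun z : (Fin m → ℂ) × (Fin k → ℂ) × ℝ × (Fin k → Fin m → ℂ) =>
        ((z.2.2.1 : ℂ) • z.1 - ∑ i, z.2.1 i • z.2.2.2 i)) := by
  have a1 : ContDiff ℝ 1 (fun z : (Fin m → ℂ) × (Fin k → ℂ) × ℝ × (Fin k → Fin m → ℂ) =>
      ((z.2.2.1 : ℝ) : ℂ)) :=
    Complex.ofRealCLM.contDiff.comp (contDiff_fst.comp (contDiff_snd.comp contDiff_snd))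
  have a2 : ContDiff ℝ 1 (fun z : (Fin m → ℂ) × (Fin k → ℂ) × ℝ × (Fin k → Fin m → ℂ) => z.1) :=
    contDiff_fst
  have a3 : ∀ i : Fin k, ContDiff ℝ 1
      (fun z : (Fin m → ℂ) × (Fin k → ℂ) × ℝ × (Fin k → Fin m → ℂ) => z.2.1 i) := fun i =>
    (contDiff_apply ℝ ℂ i).comp (contDiff_fst.comp contDiff_snd)
  have a4 : ∀ i : Fin k, ContDiff ℝ 1
      (fun z : (Fin m → ℂ) × (Fin k → ℂ) × ℝ × (Fin k → Fin m → ℂ) => z.2.2.2 i) := fun i =>
    (contDiff_apply ℝ (Fin m → ℂ) i).comp (contDiff_snd.comp (contDiff_snd.comp contDiff_snd))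
  exact (a1.smul a2).sub (ContDiff.sum fun i _ => (a3 i).smul (a4 i))

theorem contDiff_aux {k m : ℕ} (j : Fin (k + 1)) :
    ContDiff ℝ 1 (fun z : (Fin m → ℂ) × (Fin k → ℂ) × ℝ × (Fin k → Fin m → ℂ) =>
      (Fin.insertNth j ((z.2.2.1 : ℂ) • z.1 - ∑ i, z.2.1 i • z.2.2.2 i) z.2.2.2 :
        Fin (k + 1) → Fin m → ℂ)) := by
  have h5 : ContDiff ℝ 1 (fun z : (Fin m → ℂ) × (Fin k → ℂ) × ℝ × (Fin k → Fin m → ℂ) =>
        (((z.2.2.1 : ℂ) • z.1 - ∑ i, z.2.1 i • z.2.2.2 i), z.2.2.2)) :=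
    contDiff_aux0.prodMk (contDiff_snd.comp (contDiff_snd.comp contDiff_snd))
  exact (contDiff_insertNth (Y := Fin m → ℂ) (k := k) j).comp h5

/-- The chart map of the bad set. -/
noncomputable def psi {P : Type*} {k m : ℕ} (h : P × (Fin (k + 1) → ℂ) → (Fin m → ℂ))
    (j : Fin (k + 1)) (x : P × (Fin k → ℂ) × ℝ × (Fin k → Fin m → ℂ)) :
    Fin (k + 1) → Fin m → ℂ :=
  Fin.insertNth j ((x.2.2.1 : ℂ) • h (x.1, Fin.insertNth j 1 x.2.1) - ∑ i, x.2.1 i • x.2.2.2 i)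
    x.2.2.2

theorem e1_LL {P : Type*} [NormedAddCommGroup P] [NormedSpace ℝ P] {k : ℕ} (j : Fin (k + 1)) :
    ContDiff ℝ 1 (fun y : P × (Fin k → ℂ) =>
      ((y.1, Fin.insertNth j 1 y.2) : P × (Fin (k + 1) → ℂ))) := by
  have h2 : ContDiff ℝ 1 (fun y : Fin k → ℂ => ((1 : ℂ), y)) :=
    contDiff_const.prodMk contDiff_id
  have h3 : ContDiff ℝ 1 (fun y : Fin k → ℂ => (Fin.insertNth j 1 y : Fin (k + 1) → ℂ)) :=
    (contDiff_insertNth (Y := ℂ) (k := k) j).comp h2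
  exact contDiff_fst.prodMk (h3.comp contDiff_snd)

theorem psi_LL {P : Type*} [NormedAddCommGroup P] [NormedSpace ℝ P]
    {k m : ℕ} (h : P × (Fin (k + 1) → ℂ) → (Fin m → ℂ)) (hL : LL h) (j : Fin (k + 1)) :
    LL (psi h j) := by
  have e0 : LL (fun y : P × (Fin k → ℂ) => h (y.1, Fin.insertNth j 1 y.2)) :=
    LL.comp hL (LL.of_contDiff (e1_LL (P := P) j))
  have e00 : LL (fun x : P × (Fin k → ℂ) × ℝ × (Fin k → Fin m → ℂ) => (x.1, x.2.1)) :=
    LL.of_contDiff (contDiff_fst.prodMk (contDiff_fst.comp contDiff_snd))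
  have e1' := LL.comp e0 e00
  have e1 : LL (fun x : P × (Fin k → ℂ) × ℝ × (Fin k → Fin m → ℂ) =>
      h (x.1, Fin.insertNth j 1 x.2.1)) := e1'
  have e2 : LL (fun x : P × (Fin k → ℂ) × ℝ × (Fin k → Fin m → ℂ) => x.2) :=
    LL.of_contDiff contDiff_snd
  have e3 := e1.prodMk e2
  have e4 := (LL.of_contDiff (contDiff_aux (m := m) j)).comp e3
  have e5 : psi h j = (fun z : (Fin m → ℂ) × (Fin k → ℂ) × ℝ × (Fin k → Fin m → ℂ) =>
      (Fin.insertNth j ((z.2.2.1 : ℂ) • z.1 - ∑ i, z.2.1 i • z.2.2.2 i) z.2.2.2 :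
        Fin (k + 1) → Fin m → ℂ)) ∘ (fun x : P × (Fin k → ℂ) × ℝ × (Fin k → Fin m → ℂ) =>
          (h (x.1, Fin.insertNth j 1 x.2.1), x.2)) := rfl
  rw [e5]
  exact e4

/-- The bad set of column tuples. -/
theorem dimH_bad {P : Type*} [NormedAddCommGroup P] [NormedSpace ℝ P] [FiniteDimensional ℝ P]
    {k m : ℕ} (h : P × (Fin (k + 1) → ℂ) → (Fin m → ℂ)) (hL : LL h)
    (hS : ∀ p e (c : ℂ), ‖c‖ = 1 → h (p, c • e) = c • h (p, e))
    (hd : finrank ℝ P + 2 * (k + 1) ≤ 2 * m) :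
    dimH {B : Fin (k + 1) → Fin m → ℂ | ∃ p e, ∃ ρ : ℝ, ‖e‖ = 1 ∧
      app B e = (ρ : ℂ) • h (p, e)} < finrank ℝ (Fin (k + 1) → Fin m → ℂ) := by
  have hsub : {B : Fin (k + 1) → Fin m → ℂ | ∃ p e, ∃ ρ : ℝ, ‖e‖ = 1 ∧
      app B e = (ρ : ℂ) • h (p, e)} ⊆ ⋃ j, range (psi h j) := by
    rintro B ⟨p, e, ρ, he, hB⟩
    obtain ⟨j, hj⟩ := exists_norm_eq e
    rw [he] at hj
    have hj0 : e j ≠ 0 := by
      intro h0; rw [h0] at hj; simp at hj
    set e' : Fin (k + 1) → ℂ := (e j)⁻¹ • e with he'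
    set e0 : Fin k → ℂ := fun i => e' (j.succAbove i) with he0
    have hi : (Fin.insertNth j 1 e0 : Fin (k + 1) → ℂ) = e' := by
      rw [Fin.insertNth_eq_iff]
      refine ⟨?_, rfl⟩
      rw [he']; simp [hj0]
    have hB' : app B e' = (ρ : ℂ) • h (p, e') := by
      rw [he', app_smul, hB, hS _ _ _ (by rw [norm_inv, hj, inv_one])]
      exact smul_comm _ _ _
    rw [mem_iUnion]
    refine ⟨j, ⟨(p, e0, ρ, fun i => B (j.succAbove i)), ?_⟩⟩
    unfold psi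
    rw [Fin.insertNth_eq_iff]
    refine ⟨?_, rfl⟩
    simp only
    rw [hi, ← hB', app, Fin.sum_univ_succAbove _ j]
    have : e' j = 1 := by rw [he']; simp [hj0]
    rw [this, one_smul]
    simp [he0]
  have hr : ∀ j, dimH (range (psi h j)) ≤
      (finrank ℝ (P × (Fin k → ℂ) × ℝ × (Fin k → Fin m → ℂ)) : ℝ≥0∞) := by
    intro j
    refine (dimH_range_le_of_locally_lipschitzOn (psi_LL h hL j)).trans ?_
    rw [Real.dimH_univ_eq_finrank]
  have h1 : dimH {B : Fin (k + 1) → Fin m → ℂ | ∃ p e, ∃ ρ : ℝ, ‖e‖ = 1 ∧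
      app B e = (ρ : ℂ) • h (p, e)} ≤
      (finrank ℝ (P × (Fin k → ℂ) × ℝ × (Fin k → Fin m → ℂ)) : ℝ≥0∞) := by
    refine (dimH_mono hsub).trans ?_
    rw [dimH_iUnion]
    exact iSup_le hr
  refine h1.trans_lt ?_
  rw [Nat.cast_lt]
  have f1 : finrank ℝ (Fin (k + 1) → Fin m → ℂ) = (k + 1) * (m * 2) := by
    simp [Module.finrank_pi_fintype, Complex.finrank_real_complex]
  have f2 : finrank ℝ (P × (Fin k → ℂ) × ℝ × (Fin k → Fin m → ℂ)) =
      finrank ℝ P + (k * 2 + (1 + k * (m * 2))) := by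
    simp [Module.finrank_prod, Module.finrank_pi_fintype, Complex.finrank_real_complex]
  rw [f1, f2]
  nlinarith

end Vale.Agent.P247.H931
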