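import Vale.Agent.P247.H931.GenT

/-!
`gen_point`: a homogeneous nowhere zero map of a complex vector space to itself is homotopic,
through such maps, to the identity.
-/

namespace Vale.Agent.P247.H931

open Set Filter Topology Metric MeasureTheory Module
open scoped NNReal ENNReal

/-- the standard basis as a tuple of columns -/
noncomputable def idc (m : ℕ) : Fin m → Fin m → ℂ := fun i j => if i = j then 1 else 0

theorem app_idc {m : ℕ} (e : Fin m → ℂ) : app (idc m) e = e := by
  ext j
  simp [app, idc]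

theorem app_sub_left {m : ℕ} (B C : Fin m → Fin m → ℂ) (e : Fin m → ℂ) :
    ‖app B e - app C e‖ ≤ (m * ‖B - C‖) * ‖e‖ := by
  have h1 : app B e - app C e = ∑ i, e i • (B i - C i) := by
    simp [app, Finset.sum_sub_distrib, smul_sub]
  rw [h1]
  calc ‖∑ i, e i • (B i - C i)‖ ≤ ∑ i : Fin m, ‖e i • (B i - C i)‖ := norm_sum_le _ _
    _ ≤ ∑ _i : Fin m, ‖e‖ * ‖B - C‖ := by
        refine Finset.sum_le_sum fun i _ => ?_
        rw [norm_smul]
        exact mul_le_mul (norm_le_pi_norm e i) (norm_le_pi_norm (B - C) i) (norm_nonneg _)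
          (norm_nonneg _)
    _ = (m * ‖B - C‖) * ‖e‖ := by
        rw [Finset.sum_const, Finset.card_univ, Fintype.card_fin, nsmul_eq_mul]; ring

noncomputable def v0 (s : ℝ) : ℝ := max 0 (1 - 3 * s)
noncomputable def v1 (s : ℝ) : ℝ := max 0 (1 - |3 * s - 1|)
noncomputable def v2 (s : ℝ) : ℝ := max 0 (1 - |3 * s - 2|)
noncomputable def v3 (s : ℝ) : ℝ := max 0 (3 * s - 2)

theorem gen_point {m : ℕ} (f : (Fin m → ℂ) → (Fin m → ℂ)) (hf : Continuous f)
    (h1 : ∀ (c : ℂ) e, f (c • e) = c • f e) (hnz : ∀ e, e ≠ 0 → f e ≠ 0) :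
    ∃ H : ℝ → (Fin m → ℂ) → (Fin m → ℂ),
      Continuous (fun x : ℝ × (Fin m → ℂ) => H x.1 x.2) ∧
      (∀ e, H 0 e = f e) ∧ (∀ e, H 1 e = e) ∧
      (∀ s (c : ℂ) e, H s (c • e) = c • H s e) ∧
      ∀ s ∈ Icc (0 : ℝ) 1, ∀ e, e ≠ 0 → H s e ≠ 0 := by
  obtain _ | k := m
  · refine ⟨fun s x => x, ?_, ?_, ?_, ?_, ?_⟩
    · fun_prop
    · intro x; exact Subsingleton.elim _ _
    · intro x; rfl
    · intro s c e; rfl
    · intro s _ e he
      exact absurd (Subsingleton.elim e 0) he
  -- minimum of |f| on the sphere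
  have hS : IsCompact (sphere (0 : Fin (k + 1) → ℂ) 1) := isCompact_sphere _ _
  have hne : (sphere (0 : Fin (k + 1) → ℂ) 1).Nonempty :=
    NormedSpace.sphere_nonempty.2 zero_le_one
  obtain ⟨x0, hx0, hmin⟩ := hS.exists_isMinOn hne (hf.norm.continuousOn)
  set μ : ℝ := ‖f x0‖ with hμ
  have hμ0 : 0 < μ := by
    rw [hμ, norm_pos_iff]
    refine hnz x0 ?_
    rintro h3
    rw [h3] at hx0
    simp at hx0
  have hμle : ∀ e, ‖e‖ = 1 → μ ≤ ‖f e‖ := fun e he =>
    hmin (show e ∈ _ from mem_sphere_zero_iff_norm.2 he)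
  obtain ⟨g, hgL, hg0, hg1, hgd⟩ := exists_approx (k := k + 1) (m := k + 1) (fun x => f x.2)
    (hf.comp continuous_snd) (fun ζ e c _ => rfl) (fun ζ e c _ => h1 c e) (half_pos hμ0)
  -- generic B near the identity
  have hLc : LL (fun x : (Fin 0 → ℝ) × (Fin (k + 1) → ℂ) => ((0 : Fin 2 → ℂ), x.2)) := by
    apply LL.of_contDiff
    exact contDiff_const.prodMk contDiff_snd
  have d0 := dimH_bad (P := Fin 0 → ℝ) (k := k) (m := k + 1) (fun x => g (0, x.2))
    (LL.comp (g := g) hgL.ll hLc) (fun p e c hc => hg1 _ _ _ hc)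
    (by rw [Module.finrank_pi]; simp)
  have hden := dense_compl_of_dimH_lt_finrank d0
  obtain ⟨B, hB, hBd⟩ := hden.exists_dist_lt (idc (k + 1))
    (ε := 1 / (2 * ((k + 1 : ℕ) : ℝ))) (by positivity)
  have hBI : ∀ e, ‖app B e - e‖ ≤ (1 / 2) * ‖e‖ := by
    intro e
    have h2 := app_sub_left B (idc (k + 1)) e
    rw [app_idc] at h2
    refine h2.trans (mul_le_mul_of_nonneg_right ?_ (norm_nonneg _))
    rw [dist_comm, dist_eq_norm] at hBd
    have hk : (0 : ℝ) < ((k + 1 : ℕ) : ℝ) := by positivity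
    calc ((k + 1 : ℕ) : ℝ) * ‖B - idc (k + 1)‖ ≤ ((k + 1 : ℕ) : ℝ) *
        (1 / (2 * ((k + 1 : ℕ) : ℝ))) := mul_le_mul_of_nonneg_left hBd.le hk.le
      _ = 1 / 2 := by field_simp
  have key : ∀ e (ρ : ℝ), ‖e‖ = 1 → app B e ≠ (ρ : ℂ) • g (0, e) := by
    intro e ρ he h
    exact hB ⟨0, e, ρ, he, h⟩
  have hgc : Continuous g := hgL.continuous
  have c1 := hgz_cont g hgc hg1
  have c1' : Continuous (fun x : ℝ × (Fin (k + 1) → ℂ) => hgz g ((0 : Fin 2 → ℂ), x.2)) :=
    c1.comp (continuous_const.prodMk continuous_snd)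
  refine ⟨fun s x => ((v0 s : ℝ) : ℂ) • f x + ((v1 s : ℝ) : ℂ) • hgz g (0, x) +
    ((v2 s : ℝ) : ℂ) • app B x + ((v3 s : ℝ) : ℂ) • x, ?_, ?_, ?_, ?_, ?_⟩
  · have c2 := continuous_app B
    have c3 : Continuous v0 := by unfold v0; fun_prop
    have c4 : Continuous v1 := by unfold v1; fun_prop
    have c5 : Continuous v2 := by unfold v2; fun_prop
    have c6 : Continuous v3 := by unfold v3; fun_prop
    fun_prop
  · intro x; norm_num [v0, v1, v2, v3]
  · intro x; norm_num [v0, v1, v2, v3]
  · intro s c e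
    simp only
    rw [h1, hgz_smul g hg1, app_smul, smul_add, smul_add, smul_add, smul_comm _ c, smul_comm _ c,
      smul_comm _ c, smul_comm _ c]
  · intro s hs e he hz
    simp only at hz
    have hn : 0 < ‖e‖ := norm_pos_iff.2 he
    set u : Fin (k + 1) → ℂ := ((‖e‖⁻¹ : ℝ) : ℂ) • e with hu
    have hu1 : ‖u‖ = 1 := by
      rw [hu, norm_smul, Complex.norm_real, norm_inv, norm_norm, inv_mul_cancel₀ hn.ne']
    have hz' : ((v0 s : ℝ) : ℂ) • f u + ((v1 s : ℝ) : ℂ) • g (0, u) +
        ((v2 s : ℝ) : ℂ) • app B u + ((v3 s : ℝ) : ℂ) • u = 0 := by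
      have e1 : hgz g (0, u) = g (0, u) := hgz_of_norm g 0 hu1
      rw [← e1, hu, h1, hgz_smul g hg1, app_smul, smul_comm _ ((‖e‖⁻¹ : ℝ) : ℂ),
        smul_comm _ ((‖e‖⁻¹ : ℝ) : ℂ), smul_comm _ ((‖e‖⁻¹ : ℝ) : ℂ),
        smul_comm _ ((‖e‖⁻¹ : ℝ) : ℂ), ← smul_add, ← smul_add, ← smul_add, hz,
        smul_zero]
    have hs0 := hs.1
    have hs1 := hs.2
    rcases le_total (3 * s) 1 with h12 | h12
    · have a0 : v0 s = 1 - 3 * s := by unfold v0; exact max_eq_right (by linarith)
      have a1 : v1 s = 3 * s := by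
        unfold v1; rw [abs_of_nonpos (by linarith), max_eq_right (by linarith)]; ring
      have a2 : v2 s = 0 := by
        unfold v2; rw [abs_of_nonpos (by linarith)]; exact max_eq_left (by linarith)
      have a3 : v3 s = 0 := by unfold v3; exact max_eq_left (by linarith)
      rw [a0, a1, a2, a3] at hz'
      have e2 : f u = -(((3 * s : ℝ) : ℂ) • (g (0, u) - f u)) := by
        have e3 : f u + ((3 * s : ℝ) : ℂ) • (g (0, u) - f u) = 0 := by
          rw [← hz']
          push_cast
          module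
        exact eq_neg_of_add_eq_zero_left e3
      have e4 : ‖f u‖ ≤ μ / 2 := by
        rw [e2, norm_neg, norm_smul, Complex.norm_real, Real.norm_of_nonneg (by linarith)]
        calc 3 * s * ‖g (0, u) - f u‖ ≤ 1 * (μ / 2) := by
              apply mul_le_mul h12 (hgd (0, u)) (norm_nonneg _) zero_le_one
          _ = μ / 2 := one_mul _
      have := hμle u hu1
      linarith
    · rcases le_total (3 * s) 2 with h23 | h23
      · have a0 : v0 s = 0 := by unfold v0; exact max_eq_left (by linarith)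
        have a1 : v1 s = 2 - 3 * s := by
          unfold v1; rw [abs_of_nonneg (by linarith), max_eq_right (by linarith)]; ring
        have a2 : v2 s = 3 * s - 1 := by
          unfold v2; rw [abs_of_nonpos (by linarith), max_eq_right (by linarith)]; ring
        have a3 : v3 s = 0 := by unfold v3; exact max_eq_left (by linarith)
        rw [a0, a1, a2, a3] at hz'
        rcases eq_or_lt_of_le h12 with h0 | h0
        · -- 3 s = 1
          rw [← h0] at hz'
          norm_num at hz'
          have := hμle u hu1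
          have h5 := hgd (0, u)
          simp only [hz', zero_sub, norm_neg] at h5
          linarith
        · have hpos : (0 : ℝ) < 3 * s - 1 := by linarith
          refine key u (-((2 - 3 * s) / (3 * s - 1))) hu1 ?_
          have hne' : ((3 * s - 1 : ℝ) : ℂ) ≠ 0 := by
            rw [Complex.ofReal_ne_zero]; exact hpos.ne'
          have e5 : ((3 * s - 1 : ℝ) : ℂ) • app B u = -(((2 - 3 * s : ℝ) : ℂ) • g (0, u)) := by
            have e6 : ((3 * s - 1 : ℝ) : ℂ) • app B u + ((2 - 3 * s : ℝ) : ℂ) • g (0, u) = 0 := by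
              rw [← hz']; push_cast; module
            exact eq_neg_of_add_eq_zero_left e6
          have e7 : app B u = ((3 * s - 1 : ℝ) : ℂ)⁻¹ • (((3 * s - 1 : ℝ) : ℂ) • app B u) := by
            rw [smul_smul, inv_mul_cancel₀ hne', one_smul]
          rw [e7, e5, smul_neg, smul_smul, ← neg_smul]
          congr 1
          push_cast
          field_simp
      · have a0 : v0 s = 0 := by unfold v0; exact max_eq_left (by linarith)
        have a1 : v1 s = 0 := by
          unfold v1; rw [abs_of_nonneg (by linarith)]; exact max_eq_left (by linarith)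
        have a2 : v2 s = 3 - 3 * s := by
          unfold v2; rw [abs_of_nonneg (by linarith), max_eq_right (by linarith)]; ring
        have a3 : v3 s = 3 * s - 2 := by unfold v3; exact max_eq_right (by linarith)
        rw [a0, a1, a2, a3] at hz'
        have e2 : u = -(((3 - 3 * s : ℝ) : ℂ) • (app B u - u)) := by
          have e3 : u + ((3 - 3 * s : ℝ) : ℂ) • (app B u - u) = 0 := by
            rw [← hz']
            push_cast
            module
          exact eq_neg_of_add_eq_zero_left e3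
        have e4 : ‖u‖ ≤ 1 / 2 := by
          rw [e2, norm_neg, norm_smul, Complex.norm_real, Real.norm_of_nonneg (by linarith)]
          calc (3 - 3 * s) * ‖app B u - u‖ ≤ 1 * ((1 / 2) * ‖u‖) := by
                apply mul_le_mul (by linarith) (hBI u) (norm_nonneg _) zero_le_one
            _ = 1 / 2 := by rw [hu1]; ring
        rw [hu1] at e4
        linarith

end Vale.Agent.P247.H931
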