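import Vale.Agent.P247.H931.Avg

/-!
Homotopy of an S^2-family of homogeneous maps `E → Y`, `dim Y ≥ dim E + 1`, to a constant
linear family.
-/

namespace Vale.Agent.P247.H931

open Set Filter Topology Metric MeasureTheory Module
open scoped NNReal ENNReal

/-- A family of positively homogeneous maps which is continuous off zero is continuous. -/
theorem homog_cont {T E Y : Type*} [TopologicalSpace T] [NormedAddCommGroup E] [NormedSpace ℝ E]
    [ProperSpace E] [NormedAddCommGroup Y] [NormedSpace ℝ Y] (F : T → E → Y)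
    (h0 : ∀ t, F t 0 = 0) (hF : ∀ t (r : ℝ) e, 0 < r → F t (r • e) = r • F t e)
    (hc : ContinuousOn (fun x : T × E => F x.1 x.2) {x | x.2 ≠ 0}) :
    Continuous fun x : T × E => F x.1 x.2 := by
  have hop : IsOpen {x : T × E | x.2 ≠ 0} := isOpen_ne_fun continuous_snd continuous_const
  rw [continuous_iff_continuousAt]
  rintro ⟨t0, e0⟩
  by_cases he : e0 = 0
  · subst he
    have hS : IsCompact (sphere (0 : E) 1) := isCompact_sphere 0 1
    have hcS : ContinuousOn (fun u => ‖F t0 u‖) (sphere (0 : E) 1) := by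
      refine ContinuousOn.norm ?_
      refine hc.comp (f := fun u => (t0, u)) (by fun_prop) fun u hu => ?_
      show u ≠ 0
      rintro rfl
      simp at hu
    obtain ⟨M, hM⟩ := hS.bddAbove_image hcS
    have hM' : ∀ u ∈ sphere (0 : E) 1, ‖F t0 u‖ ≤ M := fun u hu => hM ⟨u, hu, rfl⟩
    have ev : ∀ᶠ t in 𝓝 t0, ∀ u ∈ sphere (0 : E) 1, ‖F t u‖ < |M| + 1 := by
      refine hS.eventually_forall_of_forall_eventually fun u hu => ?_
      have hu0 : u ≠ 0 := by rintro rfl; simp at hu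
      have h1 : ContinuousAt (fun x : T × E => ‖F x.1 x.2‖) (t0, u) :=
        (hc.continuousAt (hop.mem_nhds hu0)).norm
      refine h1.eventually_lt continuousAt_const ?_
      exact ((hM' u hu).trans (le_abs_self M)).trans_lt (lt_add_one _)
    have bd : ∀ᶠ x : T × E in 𝓝 (t0, (0 : E)), ‖F x.1 x.2‖ ≤ (|M| + 1) * ‖x.2‖ := by
      have := (continuous_fst.tendsto (t0, (0 : E))).eventually ev
      filter_upwards [this] with x hx
      by_cases hx0 : x.2 = 0
      · rw [hx0, h0]; simp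
      · have hn : 0 < ‖x.2‖ := norm_pos_iff.2 hx0
        have e1 : x.2 = ‖x.2‖ • (‖x.2‖⁻¹ • x.2) := by
          rw [smul_smul, mul_inv_cancel₀ hn.ne', one_smul]
        have hu : ‖x.2‖⁻¹ • x.2 ∈ sphere (0 : E) 1 := by
          rw [mem_sphere_zero_iff_norm, norm_smul, norm_inv, norm_norm, inv_mul_cancel₀ hn.ne']
        rw [e1, hF _ _ _ hn, norm_smul, norm_norm, ← e1, mul_comm]
        exact mul_le_mul_of_nonneg_right (hx _ hu).le hn.le
    have hF0 : F t0 0 = 0 := h0 t0
    rw [ContinuousAt]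
    simp only [hF0]
    refine squeeze_zero_norm' bd ?_
    have : Tendsto (fun x : T × E => (|M| + 1) * ‖x.2‖) (𝓝 (t0, (0 : E)))
        (𝓝 ((|M| + 1) * ‖(0 : E)‖)) :=
      ((continuous_const.mul continuous_snd.norm).tendsto _)
    simpa using this
  · exact hc.continuousAt (hop.mem_nhds he)

/-- rotation in the second variable -/
noncomputable def act1 (k : ℕ) : Act ((Fin 2 → ℂ) × (Fin k → ℂ)) where
  r t x := (x.1, Complex.exp ((2 * Real.pi * t : ℝ) * Complex.I) • x.2)
  c t := Complex.exp ((-(2 * Real.pi * t) : ℝ) * Complex.I)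
  r_cont := by fun_prop
  c_cont := by fun_prop
  r_add s t x := by
    simp only [smul_smul, ← Complex.exp_add]
    congr 3
    push_cast; ring
  r_one x := by
    have : Complex.exp ((2 * Real.pi * (1 : ℝ) : ℝ) * Complex.I) = 1 := by
      rw [Complex.exp_eq_one_iff]
      exact ⟨1, by push_cast; ring⟩
    rw [this, one_smul]
  r_dist t x y := by
    have hl : ‖Complex.exp ((2 * Real.pi * t : ℝ) * Complex.I)‖ = 1 :=
      Complex.norm_exp_ofReal_mul_I _
    rw [Prod.norm_def, Prod.norm_def]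
    simp only [Prod.fst_sub, Prod.snd_sub]
    rw [← smul_sub, norm_smul, hl, one_mul]
  r_norm t x := by
    have hl : ‖Complex.exp ((2 * Real.pi * t : ℝ) * Complex.I)‖ = 1 :=
      Complex.norm_exp_ofReal_mul_I _
    rw [Prod.norm_def, Prod.norm_def]
    simp only
    rw [norm_smul, hl, one_mul]
  c_add s t := by
    rw [← Complex.exp_add]; congr 1; push_cast; ring
  c_one := by
    rw [Complex.exp_eq_one_iff]
    exact ⟨-1, by push_cast; ring⟩
  c_norm t := Complex.norm_exp_ofReal_mul_I _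

/-- rotation in the first variable, trivial character -/
noncomputable def act0 (k : ℕ) : Act ((Fin 2 → ℂ) × (Fin k → ℂ)) where
  r t x := (Complex.exp ((2 * Real.pi * t : ℝ) * Complex.I) • x.1, x.2)
  c _ := 1
  r_cont := by fun_prop
  c_cont := by fun_prop
  r_add s t x := by
    simp only [smul_smul, ← Complex.exp_add]
    congr 3
    push_cast; ring
  r_one x := by
    have : Complex.exp ((2 * Real.pi * (1 : ℝ) : ℝ) * Complex.I) = 1 := by
      rw [Complex.exp_eq_one_iff]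
      exact ⟨1, by push_cast; ring⟩
    rw [this, one_smul]
  r_dist t x y := by
    have hl : ‖Complex.exp ((2 * Real.pi * t : ℝ) * Complex.I)‖ = 1 :=
      Complex.norm_exp_ofReal_mul_I _
    rw [Prod.norm_def, Prod.norm_def]
    simp only [Prod.fst_sub, Prod.snd_sub]
    rw [← smul_sub, norm_smul, hl, one_mul]
  r_norm t x := by
    have hl : ‖Complex.exp ((2 * Real.pi * t : ℝ) * Complex.I)‖ = 1 :=
      Complex.norm_exp_ofReal_mul_I _
    rw [Prod.norm_def, Prod.norm_def]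
    simp only
    rw [norm_smul, hl, one_mul]
  c_add s t := by simp
  c_one := rfl
  c_norm t := by simp

theorem exists_turn {c : ℂ} (hc : ‖c‖ = 1) :
    ∃ t : ℝ, Complex.exp ((2 * Real.pi * t : ℝ) * Complex.I) = c := by
  obtain ⟨θ, hθ⟩ := (Complex.norm_eq_one_iff c).1 hc
  refine ⟨θ / (2 * Real.pi), ?_⟩
  rw [← hθ]
  congr 2
  push_cast
  field_simp

/-- Equivariant approximation by maps which are Lipschitz on balls. -/
theorem exists_approx {k m : ℕ} (χ : (Fin 2 → ℂ) × (Fin k → ℂ) → (Fin m → ℂ))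
    (hχ : Continuous χ)
    (h0 : ∀ ζ e (c : ℂ), ‖c‖ = 1 → χ (c • ζ, e) = χ (ζ, e))
    (h1 : ∀ ζ e (c : ℂ), ‖c‖ = 1 → χ (ζ, c • e) = c • χ (ζ, e)) {ε : ℝ} (hε : 0 < ε) :
    ∃ g : (Fin 2 → ℂ) × (Fin k → ℂ) → (Fin m → ℂ), LB g ∧
      (∀ ζ e (c : ℂ), ‖c‖ = 1 → g (c • ζ, e) = g (ζ, e)) ∧
      (∀ ζ e (c : ℂ), ‖c‖ = 1 → g (ζ, c • e) = c • g (ζ, e)) ∧
      ∀ x, ‖g x - χ x‖ ≤ ε := by
  obtain ⟨g0, hg0, hd, -⟩ := hχ.exists_contDiff_approx 1 (ε := fun _ => ε) continuous_const
    (fun _ => hε)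
  have hb0 : LB g0 := LB.of_contDiff (by exact_mod_cast hg0)
  have hd0 : ∀ x, ‖g0 x - χ x‖ ≤ ε := fun x => by
    have := hd x
    rw [dist_eq_norm] at this
    exact this.le
  set g1 := (act1 k).avg g0 with hg1
  have hb1 : LB g1 := (act1 k).avg_LB hb0
  have hχ1 : ∀ s x, χ ((act1 k).r s x) = (act1 k).c (-s) • χ x := by
    intro s x
    have : χ ((act1 k).r s x) = Complex.exp ((2 * Real.pi * s : ℝ) * Complex.I) • χ (x.1, x.2) :=
      h1 x.1 x.2 _ (Complex.norm_exp_ofReal_mul_I _)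
    rw [this]
    congr 1
    simp only [act1]
    congr 2
    push_cast; ring
  have hd1 : ∀ x, ‖g1 x - χ x‖ ≤ ε := (act1 k).avg_dist hb0.continuous hχ hd0 hχ1
  have hs1 : ∀ ζ e (c : ℂ), ‖c‖ = 1 → g1 (ζ, c • e) = c • g1 (ζ, e) := by
    intro ζ e c hc
    obtain ⟨t, rfl⟩ := exists_turn hc
    have h2 : g1 (ζ, Complex.exp ((2 * Real.pi * t : ℝ) * Complex.I) • e) =
        Complex.exp ((-(2 * Real.pi * (-t)) : ℝ) * Complex.I) • g1 (ζ, e) :=
      (act1 k).avg_r (g := g0) t (ζ, e)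
    rw [h2]
    congr 3
    push_cast; ring
  set g2 := (act0 k).avg g1 with hg2
  have hb2 : LB g2 := (act0 k).avg_LB hb1
  have hχ0 : ∀ s x, χ ((act0 k).r s x) = (act0 k).c (-s) • χ x := by
    intro s x
    have : χ ((act0 k).r s x) = χ (x.1, x.2) :=
      h0 x.1 x.2 _ (Complex.norm_exp_ofReal_mul_I _)
    rw [this]
    simp [act0]
  have hd2 : ∀ x, ‖g2 x - χ x‖ ≤ ε := (act0 k).avg_dist hb1.continuous hχ hd1 hχ0
  refine ⟨g2, hb2, ?_, ?_, hd2⟩
  · intro ζ e c hc
    obtain ⟨t, rfl⟩ := exists_turn hc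
    have h2 : g2 (Complex.exp ((2 * Real.pi * t : ℝ) * Complex.I) • ζ, e) =
        (1 : ℂ) • g2 (ζ, e) := (act0 k).avg_r (g := g1) t (ζ, e)
    rw [h2, one_smul]
  · intro ζ e c hc
    exact (act0 k).avg_comm (g := g1) (fun x => (x.1, c • x.2)) c (fun t x => rfl)
      (fun x => hs1 x.1 x.2 c hc) (ζ, e)

end Vale.Agent.P247.H931
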