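import Vale.Agent.P247.H931.GenS

/-!
`gen_sphere`: homotopy of an S^2-family of homogeneous maps to a constant linear family.
`gen_point`: homotopy of one homogeneous map to a linear map close to a given one.
-/

namespace Vale.Agent.P247.H931

open Set Filter Topology Metric MeasureTheory Module
open scoped NNReal ENNReal

/-- homogenisation in the second variable -/
noncomputable def hgz {k m : ℕ} (g : (Fin 2 → ℂ) × (Fin k → ℂ) → (Fin m → ℂ))
    (x : (Fin 2 → ℂ) × (Fin k → ℂ)) : Fin m → ℂ :=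
  (‖x.2‖ : ℂ) • g (x.1, ((‖x.2‖⁻¹ : ℝ) : ℂ) • x.2)

theorem hgz_of_norm {k m : ℕ} (g : (Fin 2 → ℂ) × (Fin k → ℂ) → (Fin m → ℂ)) (ζ : Fin 2 → ℂ)
    {e : Fin k → ℂ} (he : ‖e‖ = 1) : hgz g (ζ, e) = g (ζ, e) := by
  simp [hgz, he]

theorem hgz_smul {k m : ℕ} (g : (Fin 2 → ℂ) × (Fin k → ℂ) → (Fin m → ℂ))
    (hg : ∀ ζ e (c : ℂ), ‖c‖ = 1 → g (ζ, c • e) = c • g (ζ, e)) (ζ : Fin 2 → ℂ) (e : Fin k → ℂ)
    (c : ℂ) : hgz g (ζ, c • e) = c • hgz g (ζ, e) := by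
  by_cases hc : c = 0
  · subst hc; simp [hgz]
  · have hc' : (‖c‖ : ℂ) ≠ 0 := by
      rw [Complex.ofReal_ne_zero]; exact norm_ne_zero_iff.2 hc
    have h1 : ‖(c / ‖c‖ : ℂ)‖ = 1 := by
      rw [norm_div, Complex.norm_real, norm_norm, div_self (norm_ne_zero_iff.2 hc)]
    have h2 : ((‖c • e‖⁻¹ : ℝ) : ℂ) • (c • e) = (c / ‖c‖ : ℂ) • (((‖e‖⁻¹ : ℝ) : ℂ) • e) := by
      rw [norm_smul, mul_inv, smul_smul, smul_smul]
      congr 1
      push_cast
      field_simp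
    unfold hgz
    simp only
    rw [h2, hg _ _ _ h1, norm_smul, smul_smul, smul_smul]
    congr 1
    push_cast
    field_simp

theorem hgz_cont {k m : ℕ} (g : (Fin 2 → ℂ) × (Fin k → ℂ) → (Fin m → ℂ)) (hc : Continuous g)
    (hg : ∀ ζ e (c : ℂ), ‖c‖ = 1 → g (ζ, c • e) = c • g (ζ, e)) : Continuous (hgz g) := by
  have := homog_cont (T := Fin 2 → ℂ) (E := Fin k → ℂ) (Y := Fin m → ℂ)
    (fun ζ e => hgz g (ζ, e)) (fun ζ => by simp [hgz])
    (fun ζ r e _ => by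
      have := hgz_smul g hg ζ e (r : ℂ)
      simpa using this) ?_
  · exact this
  · have a1 : ContinuousOn (fun x : (Fin 2 → ℂ) × (Fin k → ℂ) => ((‖x.2‖ : ℝ) : ℂ))
        {x | x.2 ≠ 0} :=
      (Complex.continuous_ofReal.comp (continuous_norm.comp continuous_snd)).continuousOn
    have a2 : ContinuousOn (fun x : (Fin 2 → ℂ) × (Fin k → ℂ) => ((‖x.2‖⁻¹ : ℝ) : ℂ))
        {x | x.2 ≠ 0} := by
      refine Complex.continuous_ofReal.comp_continuousOn ?_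
      refine ContinuousOn.inv₀ (continuous_norm.comp continuous_snd).continuousOn ?_
      intro x hx
      exact norm_ne_zero_iff.2 hx
    have a3 : ContinuousOn (fun x : (Fin 2 → ℂ) × (Fin k → ℂ) =>
        (x.1, ((‖x.2‖⁻¹ : ℝ) : ℂ) • x.2)) {x | x.2 ≠ 0} :=
      continuousOn_fst.prodMk (a2.smul continuousOn_snd)
    exact a1.smul (hc.comp_continuousOn a3)

/-- weights of the two-step homotopy -/
noncomputable def w0 (s : ℝ) : ℝ := max 0 (1 - 2 * s)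
noncomputable def w1 (s : ℝ) : ℝ := 1 - |1 - 2 * s|
noncomputable def w2 (s : ℝ) : ℝ := max 0 (2 * s - 1)

theorem LL_chart0 (k : ℕ) : LL (fun x : ℂ × (Fin k → ℂ) => ((![1, x.1] : Fin 2 → ℂ), x.2)) := by
  apply LL.of_contDiff
  refine ContDiff.prodMk ?_ contDiff_snd
  rw [contDiff_pi]
  rw [Fin.forall_fin_two]
  exact ⟨contDiff_const, contDiff_fst⟩

theorem LL_chart1 (k : ℕ) : LL (fun x : ℂ × (Fin k → ℂ) => ((![x.1, 1] : Fin 2 → ℂ), x.2)) := by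
  apply LL.of_contDiff
  refine ContDiff.prodMk ?_ contDiff_snd
  rw [contDiff_pi]
  rw [Fin.forall_fin_two]
  exact ⟨contDiff_fst, contDiff_const⟩

theorem gen_sphere {k m : ℕ} (hkm : k + 1 ≤ m) (χ : (Fin 2 → ℂ) × (Fin k → ℂ) → (Fin m → ℂ))
    (hχ : Continuous χ)
    (h0 : ∀ ζ e (c : ℂ), ‖c‖ = 1 → χ (c • ζ, e) = χ (ζ, e))
    (h1 : ∀ ζ e (c : ℂ), χ (ζ, c • e) = c • χ (ζ, e))
    (hnz : ∀ ζ e, ‖ζ‖ = 1 → e ≠ 0 → χ (ζ, e) ≠ 0) :
    ∃ (B : Fin k → Fin m → ℂ) (Θ : ℝ → (Fin 2 → ℂ) × (Fin k → ℂ) → (Fin m → ℂ)),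
      Continuous (fun x : ℝ × (Fin 2 → ℂ) × (Fin k → ℂ) => Θ x.1 x.2) ∧
      (∀ x, Θ 0 x = χ x) ∧ (∀ x, Θ 1 x = app B x.2) ∧
      (∀ s ζ e (c : ℂ), ‖c‖ = 1 → Θ s (c • ζ, e) = Θ s (ζ, e)) ∧
      (∀ s ζ e (c : ℂ), Θ s (ζ, c • e) = c • Θ s (ζ, e)) ∧
      ∀ s ∈ Icc (0 : ℝ) 1, ∀ ζ e, ‖ζ‖ = 1 → e ≠ 0 → Θ s (ζ, e) ≠ 0 := by
  obtain _ | k := k
  · refine ⟨0, fun s x => ((1 - s : ℝ) : ℂ) • χ x, ?_, ?_, ?_, ?_, ?_, ?_⟩
    · fun_prop
    · intro x; simp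
    · intro x; simp [app]
    · intro s ζ e c hc; simp only; rw [h0 _ _ _ hc]
    · intro s ζ e c; simp only; rw [h1]; exact smul_comm _ _ _
    · intro s _ ζ e _ he
      exact absurd (Subsingleton.elim e 0) he
  -- minimum of |χ| on the product of spheres
  have hS : IsCompact (sphere (0 : Fin 2 → ℂ) 1 ×ˢ sphere (0 : Fin (k + 1) → ℂ) 1) :=
    (isCompact_sphere _ _).prod (isCompact_sphere _ _)
  have hne : (sphere (0 : Fin 2 → ℂ) 1 ×ˢ sphere (0 : Fin (k + 1) → ℂ) 1).Nonempty := by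
    refine Set.Nonempty.prod ?_ ?_
    · exact NormedSpace.sphere_nonempty.2 zero_le_one
    · exact NormedSpace.sphere_nonempty.2 zero_le_one
  obtain ⟨x0, hx0, hmin⟩ := hS.exists_isMinOn hne (hχ.norm.continuousOn)
  set μ : ℝ := ‖χ x0‖ with hμ
  have hμ0 : 0 < μ := by
    rw [hμ, norm_pos_iff]
    have h2 := (mem_prod.1 hx0).2
    refine hnz x0.1 x0.2 (mem_sphere_zero_iff_norm.1 (mem_prod.1 hx0).1) ?_
    rintro h3
    rw [h3] at h2
    simp at h2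
  have hμle : ∀ ζ e, ‖ζ‖ = 1 → ‖e‖ = 1 → μ ≤ ‖χ (ζ, e)‖ := fun ζ e hζ he =>
    hmin (show (ζ, e) ∈ _ from ⟨mem_sphere_zero_iff_norm.2 hζ, mem_sphere_zero_iff_norm.2 he⟩)
  obtain ⟨g, hgL, hg0, hg1, hgd⟩ := exists_approx χ hχ h0 (fun ζ e c _ => h1 ζ e c)
    (half_pos hμ0)
  -- generic B
  have d0 := dimH_bad (P := ℂ) (k := k) (m := m) (fun x => g (![1, x.1], x.2))
    (LL.comp (g := g) hgL.ll (LL_chart0 (k + 1))) (fun p e c hc => hg1 _ _ _ hc)
    (by rw [Complex.finrank_real_complex]; omega)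
  have d1 := dimH_bad (P := ℂ) (k := k) (m := m) (fun x => g (![x.1, 1], x.2))
    (LL.comp (g := g) hgL.ll (LL_chart1 (k + 1))) (fun p e c hc => hg1 _ _ _ hc)
    (by rw [Complex.finrank_real_complex]; omega)
  have d2 := max_lt d0 d1
  rw [← dimH_union] at d2
  obtain ⟨B, hB⟩ := (dense_compl_of_dimH_lt_finrank d2).nonempty
  rw [mem_compl_iff, mem_union, not_or] at hB
  have hgc : Continuous g := hgL.continuous
  have key : ∀ ζ e (ρ : ℝ), ‖ζ‖ = 1 → ‖e‖ = 1 → app B e ≠ (ρ : ℂ) • g (ζ, e) := by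
    intro ζ e ρ hζ he h
    obtain ⟨i, hi⟩ := exists_norm_eq (k := 1) ζ
    rw [hζ] at hi
    fin_cases i
    · have hz0 : ζ 0 ≠ 0 := by
        intro h0'; simp [h0'] at hi
      have e1 : ζ = ζ 0 • (![1, (ζ 0)⁻¹ * ζ 1] : Fin 2 → ℂ) := by
        ext i
        fin_cases i
        · simp
        · simp [hz0]
      refine hB.1 ⟨(ζ 0)⁻¹ * ζ 1, e, ρ, he, ?_⟩
      rw [h, e1, hg0 _ _ _ (by simpa using hi)]
      simp [hz0]
    · have hz0 : ζ 1 ≠ 0 := by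
        intro h0'; simp [h0'] at hi
      have e1 : ζ = ζ 1 • (![(ζ 1)⁻¹ * ζ 0, 1] : Fin 2 → ℂ) := by
        ext i
        fin_cases i
        · simp [hz0]
        · simp
      refine hB.2 ⟨(ζ 1)⁻¹ * ζ 0, e, ρ, he, ?_⟩
      rw [h, e1, hg0 _ _ _ (by simpa using hi)]
      simp [hz0]
  refine ⟨B, fun s x => ((w0 s : ℝ) : ℂ) • χ x + ((w1 s : ℝ) : ℂ) • hgz g x +
    ((w2 s : ℝ) : ℂ) • app B x.2, ?_, ?_, ?_, ?_, ?_, ?_⟩
  · have c1 := hgz_cont g hgc hg1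
    have c2 := continuous_app B
    have c3 : Continuous w0 := by unfold w0; fun_prop
    have c4 : Continuous w1 := by unfold w1; fun_prop
    have c5 : Continuous w2 := by unfold w2; fun_prop
    fun_prop
  · intro x; simp [w0, w1, w2]
  · intro x
    norm_num [w0, w1, w2]
  · intro s ζ e c hc
    simp only
    rw [h0 _ _ _ hc]
    have : hgz g (c • ζ, e) = hgz g (ζ, e) := by
      unfold hgz; simp only; rw [hg0 _ _ _ hc]
    rw [this]
  · intro s ζ e c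
    simp only
    rw [h1, hgz_smul g hg1, app_smul, smul_add, smul_add, smul_comm _ c, smul_comm _ c,
      smul_comm _ c]
  · intro s hs ζ e hζ he hz
    simp only at hz
    have hn : 0 < ‖e‖ := norm_pos_iff.2 he
    set u : Fin (k + 1) → ℂ := ((‖e‖⁻¹ : ℝ) : ℂ) • e with hu
    have hu1 : ‖u‖ = 1 := by
      rw [hu, norm_smul, Complex.norm_real, norm_inv, norm_norm, inv_mul_cancel₀ hn.ne']
    have hz' : ((w0 s : ℝ) : ℂ) • χ (ζ, u) + ((w1 s : ℝ) : ℂ) • g (ζ, u) +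
        ((w2 s : ℝ) : ℂ) • app B u = 0 := by
      have e1 : hgz g (ζ, u) = g (ζ, u) := hgz_of_norm g ζ hu1
      rw [← e1, hu, h1, hgz_smul g hg1, app_smul, smul_comm _ ((‖e‖⁻¹ : ℝ) : ℂ),
        smul_comm _ ((‖e‖⁻¹ : ℝ) : ℂ), smul_comm _ ((‖e‖⁻¹ : ℝ) : ℂ), ← smul_add, ← smul_add, hz,
        smul_zero]
    by_cases h12 : 2 * s ≤ 1
    · have a0 : w0 s = 1 - 2 * s := by unfold w0; exact max_eq_right (by linarith)
      have a1 : w1 s = 2 * s := by unfold w1; rw [abs_of_nonneg (by linarith)]; ring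
      have a2 : w2 s = 0 := by unfold w2; exact max_eq_left (by linarith)
      rw [a0, a1, a2] at hz'
      have e2 : χ (ζ, u) = -(((2 * s : ℝ) : ℂ) • (g (ζ, u) - χ (ζ, u))) := by
        have e3 : χ (ζ, u) + ((2 * s : ℝ) : ℂ) • (g (ζ, u) - χ (ζ, u)) = 0 := by
          rw [← hz']
          push_cast
          module
        exact eq_neg_of_add_eq_zero_left e3
      have e4 : ‖χ (ζ, u)‖ ≤ μ / 2 := by
        rw [e2, norm_neg, norm_smul, Complex.norm_real, Real.norm_of_nonneg (by linarith [hs.1])]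
        calc 2 * s * ‖g (ζ, u) - χ (ζ, u)‖ ≤ 1 * (μ / 2) := by
              apply mul_le_mul h12 (hgd _) (norm_nonneg _) zero_le_one
          _ = μ / 2 := one_mul _
      have := hμle ζ u hζ hu1
      linarith
    · have h12' : 1 < 2 * s := not_le.1 h12
      have a0 : w0 s = 0 := by unfold w0; exact max_eq_left (by linarith)
      have a2 : w2 s = 2 * s - 1 := by unfold w2; exact max_eq_right (by linarith)
      rw [a0, a2] at hz'
      have hpos : (0 : ℝ) < 2 * s - 1 := by linarith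
      refine key ζ u (-(w1 s / (2 * s - 1))) hζ hu1 ?_
      have hne' : ((2 * s - 1 : ℝ) : ℂ) ≠ 0 := by
        rw [Complex.ofReal_ne_zero]; exact hpos.ne'
      have e5 : ((2 * s - 1 : ℝ) : ℂ) • app B u = -(((w1 s : ℝ) : ℂ) • g (ζ, u)) := by
        have e6 : ((2 * s - 1 : ℝ) : ℂ) • app B u + ((w1 s : ℝ) : ℂ) • g (ζ, u) = 0 := by
          rw [← hz']; push_cast; module
        exact eq_neg_of_add_eq_zero_left e6
      have e7 : app B u = ((2 * s - 1 : ℝ) : ℂ)⁻¹ • (((2 * s - 1 : ℝ) : ℂ) • app B u) := by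
        rw [smul_smul, inv_mul_cancel₀ hne', one_smul]
      rw [e7, e5, smul_neg, smul_smul, ← neg_smul]
      congr 1
      push_cast
      field_simp

end Vale.Agent.P247.H931
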