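import Vale.Agent.P247.H931.Clutch
import Vale.Agent.P247.H931.Sta1

/-!
Operations on families of homogeneous maps and the square of the torus.
-/

namespace Vale.Agent.P247.H931

open Set Filter Topology Metric

section
variable {P P' W : Type*} [TopologicalSpace P] [TopologicalSpace P'] [NormedAddCommGroup W]
  [NormedSpace ℂ W]

theorem Fm.mono {S T : Set P} {Φ : P → W → W} (h : Fm T Φ) (hST : S ⊆ T) : Fm S Φ :=
  ⟨h.cont.mono (prod_mono_left hST), fun p hp => h.hom p (hST hp), fun p hp => h.ne p (hST hp)⟩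

theorem Fm.congr {S : Set P} {Φ Ψ : P → W → W} (h : Fm S Φ) (he : ∀ p ∈ S, ∀ w, Ψ p w = Φ p w) :
    Fm S Ψ where
  cont := h.cont.congr fun x hx => he x.1 hx.1 x.2
  hom p hp c w := by rw [he p hp, he p hp, h.hom p hp]
  ne p hp w hw := by rw [he p hp]; exact h.ne p hp w hw

theorem Fm.reparam {S : Set P} {S' : Set P'} {Φ : P → W → W} (h : Fm S Φ) {g : P' → P}
    (hg : ContinuousOn g S') (hm : ∀ p ∈ S', g p ∈ S) : Fm S' (fun p => Φ (g p)) where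
  cont := by
    have h1 : ContinuousOn (fun x : P' × W => (g x.1, x.2)) (S' ×ˢ univ) :=
      (hg.comp continuousOn_fst (fun x hx => hx.1)).prodMk continuousOn_snd
    exact h.cont.comp h1 (fun x hx => ⟨hm x.1 hx.1, mem_univ _⟩)
  hom p hp := h.hom _ (hm p hp)
  ne p hp := h.ne _ (hm p hp)

theorem Fm.comp {S : Set P} {Φ Ψ : P → W → W} (h : Fm S Φ) (h' : Fm S Ψ) :
    Fm S (fun p w => Φ p (Ψ p w)) where
  cont := by
    have h1 : ContinuousOn (fun x : P × W => (x.1, Ψ x.1 x.2)) (S ×ˢ univ) :=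
      continuousOn_fst.prodMk h'.cont
    exact h.cont.comp h1 (fun x hx => ⟨hx.1, mem_univ _⟩)
  hom p hp c w := by rw [h'.hom p hp, h.hom p hp]
  ne p hp w hw := h.ne p hp _ (h'.ne p hp w hw)

theorem Fm.glue {U A B : Set P} (hA : IsClosed A) (hB : IsClosed B) (hU : U ⊆ A ∪ B)
    {Φ Ψ Ξ : P → W → W} (h : Fm (U ∩ A) Φ) (h' : Fm (U ∩ B) Ψ)
    (hfA : ∀ p ∈ U ∩ A, ∀ w, Ξ p w = Φ p w) (hgB : ∀ p ∈ U ∩ B, ∀ w, Ξ p w = Ψ p w) :
    Fm U Ξ where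
  cont := by
    refine glue_on (A := A ×ˢ univ) (B := B ×ˢ univ) (hA.prod isClosed_univ)
      (hB.prod isClosed_univ) ?_ (f := fun x => Φ x.1 x.2) (g := fun x => Ψ x.1 x.2) ?_ ?_ ?_ ?_
    · rintro ⟨p, w⟩ ⟨hp, -⟩
      rcases hU hp with h1 | h1
      · exact Or.inl ⟨h1, mem_univ _⟩
      · exact Or.inr ⟨h1, mem_univ _⟩
    · exact h.cont.mono fun x hx => ⟨⟨hx.1.1, hx.2.1⟩, mem_univ _⟩
    · exact h'.cont.mono fun x hx => ⟨⟨hx.1.1, hx.2.1⟩, mem_univ _⟩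
    · exact fun x hx => hfA x.1 ⟨hx.1.1, hx.2.1⟩ x.2
    · exact fun x hx => hgB x.1 ⟨hx.1.1, hx.2.1⟩ x.2
  hom p hp c w := by
    rcases hU hp with h1 | h1
    · rw [hfA p ⟨hp, h1⟩, hfA p ⟨hp, h1⟩, h.hom p ⟨hp, h1⟩]
    · rw [hgB p ⟨hp, h1⟩, hgB p ⟨hp, h1⟩, h'.hom p ⟨hp, h1⟩]
  ne p hp w hw := by
    rcases hU hp with h1 | h1
    · rw [hfA p ⟨hp, h1⟩]; exact h.ne p ⟨hp, h1⟩ w hw
    · rw [hgB p ⟨hp, h1⟩]; exact h'.ne p ⟨hp, h1⟩ w hw

end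

/-- clamp to the interval of length one around the origin -/
noncomputable def cl (t : ℝ) : ℝ := max (-(1 / 2)) (min (1 / 2) t)

theorem cl_cont : Continuous cl := by unfold cl; fun_prop

theorem abs_cl (t : ℝ) : |cl t| ≤ 1 / 2 := by
  unfold cl
  rw [abs_le]
  constructor
  · exact le_max_left _ _
  · exact max_le (by norm_num) (min_le_left _ _)

theorem cl_eq {t : ℝ} (h : |t| ≤ 1 / 2) : cl t = t := by
  obtain ⟨h1, h2⟩ := abs_le.1 h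
  unfold cl
  rw [min_eq_right h2, max_eq_right h1]

theorem cl_pos {t : ℝ} (h : 1 / 2 ≤ t) : cl t = 1 / 2 := by
  unfold cl
  rw [min_eq_left h, max_eq_right (by norm_num)]

theorem cl_neg {t : ℝ} (h : t ≤ -(1 / 2)) : cl t = -(1 / 2) := by
  unfold cl
  rw [min_eq_right (by linarith), max_eq_left h]

theorem cl_ne {t : ℝ} (h : cl t = 0) : t = 0 := by
  rcases le_or_gt |t| (1 / 2) with h1 | h1
  · rwa [cl_eq h1] at h
  · rcases lt_abs.1 h1 with h2 | h2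
    · rw [cl_pos h2.le] at h; norm_num at h
    · rw [cl_neg (by linarith)] at h; norm_num at h

theorem not_lat {x y : ℝ} (hx : |x| ≤ 1 / 2) (hy : |y| ≤ 1 / 2) (h : (x, y) ≠ (0, 0)) :
    (x, y) ∉ Lat 0 := by
  rintro ⟨m, n, hmn⟩
  have h1 : x = m := by have := congrArg Prod.fst hmn; simpa using this
  have h2 : y = n := by have := congrArg Prod.snd hmn; simpa using this
  have h3 : m = 0 := by
    rw [h1] at hx
    have h5 : |m| < 1 := by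
      have h6 : ((|m| : ℤ) : ℝ) < 1 := by push_cast; linarith
      exact_mod_cast h6
    rwa [Int.abs_lt_one_iff] at h5
  have h4 : n = 0 := by
    rw [h2] at hy
    have h5 : |n| < 1 := by
      have h6 : ((|n| : ℤ) : ℝ) < 1 := by push_cast; linarith
      exact_mod_cast h6
    rwa [Int.abs_lt_one_iff] at h5
  apply h
  rw [h1, h2, h3, h4]
  simp

section
variable {W : Type*} [NormedAddCommGroup W] [NormedSpace ℂ W]

open Classical in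
/-- extension of the family to the bigger square, with value `H 1` at the corners -/
noncomputable def Fh (F : ℝ × ℝ → W → W) (H : ℝ → W → W) (ξ : ℝ × ℝ) : W → W :=
  if min |ξ.1| |ξ.2| ≤ 1 / 2 then F (cl ξ.1, cl ξ.2) else H (2 * min |ξ.1| |ξ.2| - 1)

variable {F : ℝ × ℝ → W → W} {H : ℝ → W → W}

omit [NormedAddCommGroup W] [NormedSpace ℂ W] in
theorem per1 (hp1 : ∀ ξ w, F (ξ + (1, 0)) w = F ξ w) (y : ℝ) (w : W) :
    F (-(1 / 2), y) w = F (1 / 2, y) w := by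
  have h1 := hp1 (-(1 / 2), y) w
  rw [← h1]
  congr 1
  ext <;> norm_num

omit [NormedAddCommGroup W] [NormedSpace ℂ W] in
theorem per2 (hp2 : ∀ ξ w, F (ξ + (0, 1)) w = F ξ w) (x : ℝ) (w : W) :
    F (x, -(1 / 2)) w = F (x, 1 / 2) w := by
  have h1 := hp2 (x, -(1 / 2)) w
  rw [← h1]
  congr 1
  ext <;> norm_num

theorem corner (hp1 : ∀ ξ w, F (ξ + (1, 0)) w = F ξ w)
    (hp2 : ∀ ξ w, F (ξ + (0, 1)) w = F ξ w) {x y : ℝ} (hx : 1 / 2 ≤ |x|) (hy : 1 / 2 ≤ |y|)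
    (w : W) : F (cl x, cl y) w = F (1 / 2, 1 / 2) w := by
  rcases le_abs.1 hx with h1 | h1
  · rcases le_abs.1 hy with h2 | h2
    · rw [cl_pos h1, cl_pos h2]
    · rw [cl_pos h1, cl_neg (by linarith), per2 hp2]
  · rcases le_abs.1 hy with h2 | h2
    · rw [cl_neg (by linarith), cl_pos h2, per1 hp1]
    · rw [cl_neg (by linarith), cl_neg (by linarith), per2 hp2, per1 hp1]

omit [NormedAddCommGroup W] [NormedSpace ℂ W] in
theorem Fh_low {ξ : ℝ × ℝ} (h : min |ξ.1| |ξ.2| ≤ 1 / 2) : Fh F H ξ = F (cl ξ.1, cl ξ.2) := by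
  simp only [Fh]
  rw [if_pos h]

theorem Fh_high (hp1 : ∀ ξ w, F (ξ + (1, 0)) w = F ξ w)
    (hp2 : ∀ ξ w, F (ξ + (0, 1)) w = F ξ w) (hH0 : ∀ w, H 0 w = F (1 / 2, 1 / 2) w)
    {ξ : ℝ × ℝ} (h : 1 / 2 ≤ min |ξ.1| |ξ.2|) (w : W) :
    Fh F H ξ w = H (2 * min |ξ.1| |ξ.2| - 1) w := by
  rcases eq_or_lt_of_le h with h1 | h1
  · rw [Fh_low h1.symm.le, corner hp1 hp2 (h.trans (min_le_left _ _))
      (h.trans (min_le_right _ _)), ← h1, ← hH0]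
    norm_num
  · simp only [Fh]
    rw [if_neg (not_le.2 h1)]

theorem Fh_fm (hF : Fm (Lat 0)ᶜ F) (hp1 : ∀ ξ w, F (ξ + (1, 0)) w = F ξ w)
    (hp2 : ∀ ξ w, F (ξ + (0, 1)) w = F ξ w) (hH : Fm (Icc (0 : ℝ) 1) H)
    (hH0 : ∀ w, H 0 w = F (1 / 2, 1 / 2) w) :
    Fm {ξ : ℝ × ℝ | ‖ξ‖ ≤ 1 ∧ ξ ≠ 0} (Fh F H) := by
  have hmc : Continuous (fun ξ : ℝ × ℝ => min |ξ.1| |ξ.2|) := by fun_prop
  refine Fm.glue (A := {ξ : ℝ × ℝ | min |ξ.1| |ξ.2| ≤ 1 / 2})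
    (B := {ξ : ℝ × ℝ | 1 / 2 ≤ min |ξ.1| |ξ.2|}) (isClosed_le hmc continuous_const)
    (isClosed_le continuous_const hmc) (fun ξ _ => le_total (min |ξ.1| |ξ.2|) (1 / 2))
    (Φ := fun ξ => F (cl ξ.1, cl ξ.2)) (Ψ := fun ξ => H (2 * min |ξ.1| |ξ.2| - 1)) ?_ ?_ ?_ ?_
  · refine hF.reparam (g := fun ξ : ℝ × ℝ => (cl ξ.1, cl ξ.2)) ?_ ?_
    · exact ((cl_cont.comp continuous_fst).prodMk (cl_cont.comp continuous_snd)).continuousOn
    · rintro ξ ⟨⟨_, h0⟩, _⟩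
      apply not_lat (abs_cl _) (abs_cl _)
      intro h
      apply h0
      have h1 : cl ξ.1 = 0 := congrArg Prod.fst h
      have h2 : cl ξ.2 = 0 := congrArg Prod.snd h
      exact Prod.ext (cl_ne h1) (cl_ne h2)
  · refine hH.reparam (g := fun ξ : ℝ × ℝ => 2 * min |ξ.1| |ξ.2| - 1) ?_ ?_
    · fun_prop
    · rintro ξ ⟨⟨h1, _⟩, h2⟩
      have h3 : |ξ.1| ≤ 1 := (norm_fst_le ξ).trans h1
      have h4 : min |ξ.1| |ξ.2| ≤ 1 := (min_le_left _ _).trans h3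
      have h5 : 1 / 2 ≤ min |ξ.1| |ξ.2| := h2
      constructor <;> linarith
  · rintro ξ ⟨_, h⟩ w
    rw [Fh_low h]
  · rintro ξ ⟨_, h⟩ w
    exact Fh_high hp1 hp2 hH0 h w

theorem Fh_per1 (hp1 : ∀ ξ w, F (ξ + (1, 0)) w = F ξ w) (y : ℝ) (w : W) :
    Fh F H (-1, y) w = Fh F H (1, y) w := by
  simp only [Fh, abs_neg, abs_one]
  split_ifs with h
  · rw [cl_neg (t := -1) (by norm_num), cl_pos (t := 1) (by norm_num), per1 hp1]
  · rfl

theorem Fh_per2 (hp2 : ∀ ξ w, F (ξ + (0, 1)) w = F ξ w) (x : ℝ) (w : W) :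
    Fh F H (x, -1) w = Fh F H (x, 1) w := by
  simp only [Fh, abs_neg, abs_one]
  split_ifs with h
  · rw [cl_neg (t := -1) (by norm_num), cl_pos (t := 1) (by norm_num), per2 hp2]
  · rfl

omit [NormedAddCommGroup W] [NormedSpace ℂ W] in
theorem Fh_corner (hH1 : ∀ w, H 1 w = w) {x y : ℝ} (hx : |x| = 1) (hy : |y| = 1) (w : W) :
    Fh F H (x, y) w = w := by
  simp only [Fh, hx, hy, min_self]
  rw [if_neg (by norm_num)]
  norm_num [hH1]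

/-- the filled-in family over the second square -/
noncomputable def Gs (F : ℝ × ℝ → W → W) (H : ℝ → W → W) (ξ : ℝ × ℝ) (w : W) : W :=
  Fh F H (ξ.1, 1) (Fh F H (1, ξ.2) w)

theorem Gs_fm (hF : Fm (Lat 0)ᶜ F) (hp1 : ∀ ξ w, F (ξ + (1, 0)) w = F ξ w)
    (hp2 : ∀ ξ w, F (ξ + (0, 1)) w = F ξ w) (hH : Fm (Icc (0 : ℝ) 1) H)
    (hH0 : ∀ w, H 0 w = F (1 / 2, 1 / 2) w) :
    Fm (closedBall (0 : ℝ × ℝ) 1) (Gs F H) := by
  have h := Fh_fm hF hp1 hp2 hH hH0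
  refine Fm.comp (Φ := fun ξ : ℝ × ℝ => Fh F H (ξ.1, 1)) (Ψ := fun ξ : ℝ × ℝ => Fh F H (1, ξ.2))
    ?_ ?_
  · refine h.reparam (g := fun ξ : ℝ × ℝ => (ξ.1, 1)) (by fun_prop) ?_
    intro ξ hξ
    rw [mem_closedBall_zero_iff] at hξ
    refine ⟨?_, ?_⟩
    · rw [Prod.norm_def]
      exact max_le ((norm_fst_le ξ).trans hξ) (by simp)
    · intro h0
      have : (1 : ℝ) = 0 := congrArg Prod.snd h0
      norm_num at this
  · refine h.reparam (g := fun ξ : ℝ × ℝ => (1, ξ.2)) (by fun_prop) ?_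
    intro ξ hξ
    rw [mem_closedBall_zero_iff] at hξ
    refine ⟨?_, ?_⟩
    · rw [Prod.norm_def]
      exact max_le (by simp) ((norm_snd_le ξ).trans hξ)
    · intro h0
      have : (1 : ℝ) = 0 := congrArg Prod.fst h0
      norm_num at this

theorem Gs_bdry (hp1 : ∀ ξ w, F (ξ + (1, 0)) w = F ξ w)
    (hp2 : ∀ ξ w, F (ξ + (0, 1)) w = F ξ w) (hH1 : ∀ w, H 1 w = w) {ξ : ℝ × ℝ}
    (hξ : ‖ξ‖ = 1) (w : W) : Gs F H ξ w = Fh F H ξ w := by
  obtain ⟨x, y⟩ := ξ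
  rw [Prod.norm_def] at hξ
  simp only [Real.norm_eq_abs] at hξ
  simp only [Gs]
  rcases max_choice |x| |y| with h | h
  · rw [h] at hξ
    rw [Fh_corner hH1 hξ (by simp)]
    rcases eq_or_eq_neg_of_abs_eq hξ with h1 | h1
    · rw [h1]
    · rw [h1, Fh_per1 hp1]
  · rw [h] at hξ
    rw [Fh_corner hH1 (by simp) hξ]
    rcases eq_or_eq_neg_of_abs_eq hξ with h1 | h1
    · rw [h1]
    · rw [h1, Fh_per2 hp2]

end

end Vale.Agent.P247.H931
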