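import Vale.Agent.P247.H931.TopA

/-!
The finite dimensional core in coordinates.
-/

namespace Vale.Agent.P247.H931

open Set Filter Topology Metric

/-- a complex number as a point of the plane with the sup norm -/
def pl (p : ℂ) : ℝ × ℝ := (p.re, p.im)

/-- radial map from the round disc to the square -/
noncomputable def sq (p : ℂ) : ℝ × ℝ := (‖p‖ / ‖pl p‖) • pl p

theorem pl_cont : Continuous pl := Complex.continuous_re.prodMk Complex.continuous_im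

theorem pl_eq_zero {p : ℂ} (h : pl p = 0) : p = 0 := by
  apply Complex.ext
  · exact congrArg Prod.fst h
  · exact congrArg Prod.snd h

theorem pl_smul (t : ℝ) (p : ℂ) : pl (t * p) = t • pl p := by
  simp [pl]

theorem norm_pl_le (p : ℂ) : ‖pl p‖ ≤ ‖p‖ := by
  rw [Prod.norm_def]
  exact max_le (by simpa [pl] using Complex.abs_re_le_norm p)
    (by simpa [pl] using Complex.abs_im_le_norm p)

theorem norm_sq (p : ℂ) : ‖sq p‖ = ‖p‖ := by
  by_cases h : p = 0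
  · subst h; simp [sq]
  · have h1 : ‖pl p‖ ≠ 0 := fun h2 => h (pl_eq_zero (norm_eq_zero.1 h2))
    rw [sq, norm_smul, Real.norm_of_nonneg (by positivity), div_mul_cancel₀ _ h1]

theorem sq_cont : Continuous sq := by
  rw [continuous_iff_continuousAt]
  intro p
  by_cases h : p = 0
  · subst h
    have h0 : sq 0 = 0 := by simp [sq]
    rw [ContinuousAt, h0]
    apply squeeze_zero_norm (a := fun p : ℂ => ‖p‖) (fun p => (norm_sq p).le)
    exact tendsto_norm_zero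
  · have h1 : ‖pl p‖ ≠ 0 := fun h2 => h (pl_eq_zero (norm_eq_zero.1 h2))
    have h2 : ContinuousAt (fun p : ℂ => ‖p‖ / ‖pl p‖) p :=
      ContinuousAt.div continuous_norm.continuousAt pl_cont.norm.continuousAt h1
    exact h2.smul pl_cont.continuousAt

theorem sq_smul {t : ℝ} (ht : 0 ≤ t) (p : ℂ) : sq (t * p) = t • sq p := by
  by_cases h : t = 0
  · subst h; simp [sq, pl]
  · have ht' : 0 < t := lt_of_le_of_ne ht (Ne.symm h)
    unfold sq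
    rw [pl_smul, norm_smul, norm_mul, Complex.norm_real, mul_div_mul_left _ _
      (norm_ne_zero_iff.2 h), smul_comm]

/-- a point of the plane as a complex number -/
def cx (h : ℝ × ℝ) : ℂ := (h.1 : ℂ) + (h.2 : ℂ) * Complex.I

theorem cx_pl (p : ℂ) : cx (pl p) = p := Complex.re_add_im p

theorem cx_smul (t : ℝ) (h : ℝ × ℝ) : cx (t • h) = t * cx h := by
  simp [cx]; ring

section
variable {k : ℕ}

/-- first basis vector -/
def f0 (k : ℕ) : Fin (k + 1) → ℂ := cns 1 0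

theorem f0_zero : f0 k 0 = 1 := by simp [f0, cns]

/-- rank one perturbation of the identity -/
noncomputable def Nn (a : ℂ) (ν : (Fin (k + 1) → ℂ) →L[ℂ] ℂ) (w : Fin (k + 1) → ℂ) :
    Fin (k + 1) → ℂ :=
  w + ((a - 1) * w 0 - ν (w - w 0 • f0 k)) • f0 k

theorem Nn_hom (a : ℂ) (ν : (Fin (k + 1) → ℂ) →L[ℂ] ℂ) (c : ℂ) (w : Fin (k + 1) → ℂ) :
    Nn a ν (c • w) = c • Nn a ν w := by
  unfold Nn
  have h : c • w - (c • w) 0 • f0 k = c • (w - w 0 • f0 k) := by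
    simp [smul_sub, smul_smul]
  rw [h, map_smul]
  simp only [Pi.smul_apply, smul_eq_mul, smul_add, smul_smul]
  congr 2
  ring

theorem Nn_ne {a : ℂ} (ha : a ≠ 0) (ν : (Fin (k + 1) → ℂ) →L[ℂ] ℂ) {w : Fin (k + 1) → ℂ}
    (hw : w ≠ 0) : Nn a ν w ≠ 0 := by
  intro h
  obtain ⟨b, hb⟩ : ∃ b : ℂ, b = (a - 1) * w 0 - ν (w - w 0 • f0 k) := ⟨_, rfl⟩
  have h1 : w = -(b • f0 k) := by
    rw [hb]; exact eq_neg_of_add_eq_zero_left h
  have h2 : w 0 = -b := by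
    have := congrFun h1 0
    rw [this]
    simp [f0_zero]
  have h3 : w = w 0 • f0 k := by rw [h2, neg_smul]; exact h1
  have h4 : w - w 0 • f0 k = 0 := sub_eq_zero.2 h3
  rw [h4, map_zero, sub_zero, h2] at hb
  have h5 : a * b = 0 := by linear_combination hb
  have h6 : b = 0 := by
    rcases mul_eq_zero.1 h5 with h | h
    · exact absurd h ha
    · exact h
  apply hw
  rw [h1, h6, zero_smul, neg_zero]

theorem Nn_mu (μ : (Fin (k + 1) → ℂ) →L[ℂ] ℂ) (w : Fin (k + 1) → ℂ) :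
    Nn (1 - μ (f0 k)) μ w = w - μ w • f0 k := by
  unfold Nn
  rw [map_sub, map_smul, sub_eq_add_neg w, ← neg_smul]
  congr 2
  simp only [smul_eq_mul]
  ring

theorem Nn_diag (a : ℂ) (z : ℂ) (e : Fin k → ℂ) : Nn a 0 (cns z e) = cns (a * z) e := by
  unfold Nn
  ext i
  refine Fin.cases ?_ (fun j => ?_) i
  · simp [cns, f0]; ring
  · simp [cns, f0]

theorem Nn_fm {P : Type*} [TopologicalSpace P] {S : Set P} {a : P → ℂ}
    {ν : P → (Fin (k + 1) → ℂ) →L[ℂ] ℂ} (ha : ContinuousOn a S) (hν : ContinuousOn ν S)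
    (ha0 : ∀ p ∈ S, a p ≠ 0) : Fm S (fun p => Nn (a p) (ν p)) where
  cont := by
    have h1 : ContinuousOn (fun x : P × (Fin (k + 1) → ℂ) => a x.1) (S ×ˢ univ) :=
      ha.comp continuousOn_fst (fun x hx => hx.1)
    have h2 : ContinuousOn (fun x : P × (Fin (k + 1) → ℂ) => ν x.1) (S ×ˢ univ) :=
      hν.comp continuousOn_fst (fun x hx => hx.1)
    have h3 : ContinuousOn (fun x : P × (Fin (k + 1) → ℂ) => x.2 0) (S ×ˢ univ) :=
      ((continuous_apply 0).comp continuous_snd).continuousOn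
    have h4 : ContinuousOn (fun x : P × (Fin (k + 1) → ℂ) => x.2 - x.2 0 • f0 k) (S ×ˢ univ) :=
      continuousOn_snd.sub (h3.smul continuousOn_const)
    exact continuousOn_snd.add
      ((((h1.sub continuousOn_const).mul h3).sub (h2.clm_apply h4)).smul continuousOn_const)
  hom p _ c w := Nn_hom _ _ c w
  ne p hp w hw := Nn_ne (ha0 p hp) _ hw

variable {F F' : ℝ × ℝ → (Fin (k + 1) → ℂ) → (Fin (k + 1) → ℂ)}
  {H : ℝ → (Fin (k + 1) → ℂ) → (Fin (k + 1) → ℂ)}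
  {μ : ℝ × ℝ → (Fin (k + 1) → ℂ) →L[ℂ] ℂ} {r : ℝ} {κ : ℂ}

/-- radial parameter of the outer annulus -/
noncomputable def g2 (r : ℝ) (q : ℂ) : ℝ × ℝ :=
  ((1 - (1 - r) * (2 * ‖q‖ - 1)) / ‖q‖) • sq (starRingEnd ℂ q)

open Classical in
/-- outer disc -/
noncomputable def Fo (F : ℝ × ℝ → (Fin (k + 1) → ℂ) → (Fin (k + 1) → ℂ))
    (H : ℝ → (Fin (k + 1) → ℂ) → (Fin (k + 1) → ℂ)) (r : ℝ) (q : ℂ) :
    (Fin (k + 1) → ℂ) → (Fin (k + 1) → ℂ) :=
  if ‖q‖ ≤ 1 / 2 then Gs F H (sq (((2 : ℝ) : ℂ) * starRingEnd ℂ q)) else Fh F H (g2 r q)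

theorem norm_g2 (hr : 0 < r) {q : ℂ} (hq : 1 / 2 ≤ ‖q‖) (hq1 : ‖q‖ ≤ 1) :
    ‖g2 r q‖ = 1 - (1 - r) * (2 * ‖q‖ - 1) := by
  have h0 : 0 < ‖q‖ := by linarith
  have h1 : 0 ≤ 1 - (1 - r) * (2 * ‖q‖ - 1) := by nlinarith
  rw [g2, norm_smul, norm_sq, Real.norm_of_nonneg (by positivity), RCLike.norm_conj,
    div_mul_cancel₀ _ h0.ne']

theorem g2_cont : ContinuousOn (g2 r) {q | 1 / 2 ≤ ‖q‖} := by
  unfold g2
  have c1 : Continuous (fun q : ℂ => 1 - (1 - r) * (2 * ‖q‖ - 1)) := by fun_prop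
  refine ContinuousOn.smul (ContinuousOn.div c1.continuousOn continuous_norm.continuousOn ?_)
    (sq_cont.comp Complex.continuous_conj).continuousOn
  intro q hq
  have : (1 : ℝ) / 2 ≤ ‖q‖ := hq
  linarith

theorem Fo_fm (hF : Fm (Lat 0)ᶜ F) (hp1 : ∀ ξ w, F (ξ + (1, 0)) w = F ξ w)
    (hp2 : ∀ ξ w, F (ξ + (0, 1)) w = F ξ w) (hH : Fm (Icc (0 : ℝ) 1) H)
    (hH0 : ∀ w, H 0 w = F (1 / 2, 1 / 2) w) (hH1 : ∀ w, H 1 w = w) (hr : 0 < r) (hr1 : r ≤ 1) :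
    Fm (closedBall (0 : ℂ) 1) (Fo F H r) := by
  refine Fm.glue (A := {q : ℂ | ‖q‖ ≤ 1 / 2}) (B := {q : ℂ | 1 / 2 ≤ ‖q‖})
    (isClosed_le continuous_norm continuous_const) (isClosed_le continuous_const continuous_norm)
    (fun q _ => le_total ‖q‖ (1 / 2))
    (Φ := fun q => Gs F H (sq (((2 : ℝ) : ℂ) * starRingEnd ℂ q)))
    (Ψ := fun q => Fh F H (g2 r q)) ?_ ?_ ?_ ?_
  · refine (Gs_fm hF hp1 hp2 hH hH0).reparam
      (g := fun q : ℂ => sq (((2 : ℝ) : ℂ) * starRingEnd ℂ q)) ?_ ?_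
    · exact (sq_cont.comp (continuous_const.mul Complex.continuous_conj)).continuousOn
    · rintro q ⟨_, hq⟩
      rw [mem_closedBall_zero_iff, norm_sq, norm_mul, Complex.norm_real, RCLike.norm_conj]
      have : ‖q‖ ≤ 1 / 2 := hq
      norm_num
      linarith
  · refine (Fh_fm hF hp1 hp2 hH hH0).reparam (g := g2 r) (g2_cont.mono inter_subset_right) ?_
    rintro q ⟨hq1, hq⟩
    rw [mem_closedBall_zero_iff] at hq1
    have hq' : (1 : ℝ) / 2 ≤ ‖q‖ := hq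
    have h1 := norm_g2 hr hq' hq1
    refine ⟨?_, ?_⟩
    · rw [h1]; nlinarith
    · rw [← norm_pos_iff, h1]; nlinarith
  · rintro q ⟨_, hq⟩ w
    have hq' : ‖q‖ ≤ 1 / 2 := hq
    simp only [Fo]
    rw [if_pos hq']
  · rintro q ⟨hq1, hq⟩ w
    have hq' : (1 : ℝ) / 2 ≤ ‖q‖ := hq
    simp only [Fo]
    split_ifs with h
    · have h2 : ‖q‖ = 1 / 2 := le_antisymm h hq'
      have h3 : g2 r q = sq (((2 : ℝ) : ℂ) * starRingEnd ℂ q) := by
        rw [g2, h2, sq_smul (by norm_num)]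
        congr 1
        norm_num
      rw [h3]
      refine Gs_bdry hp1 hp2 hH1 ?_ w
      rw [norm_sq, norm_mul, Complex.norm_real, RCLike.norm_conj, h2]
      norm_num
    · rfl

/-- on the unit circle the outer disc is the original family -/
theorem Fo_circle (hr : 0 < r) (hr1 : r ≤ 1 / 2) {u : ℂ} (hu : ‖u‖ = 1) :
    Fo F H r (starRingEnd ℂ u) = F (r • sq u) := by
  simp only [Fo]
  rw [if_neg (by rw [RCLike.norm_conj, hu]; norm_num)]
  have h1 : g2 r (starRingEnd ℂ u) = r • sq u := by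
    rw [g2, RCLike.norm_conj, hu, Complex.conj_conj]
    congr 1
    ring
  have h2 : ‖r • sq u‖ = r := by
    rw [norm_smul, norm_sq, hu, Real.norm_of_nonneg hr.le, mul_one]
  have h3 : |(r • sq u).1| ≤ 1 / 2 := (norm_fst_le (r • sq u)).trans (h2.le.trans hr1)
  have h4 : |(r • sq u).2| ≤ 1 / 2 := (norm_snd_le (r • sq u)).trans (h2.le.trans hr1)
  rw [h1, Fh_low ((min_le_left _ _).trans h3), cl_eq h3, cl_eq h4]

/-- unit vector -/
noncomputable def un (p : ℂ) : ℂ := ((‖p‖⁻¹ : ℝ) : ℂ) * p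

theorem norm_un {p : ℂ} (h : p ≠ 0) : ‖un p‖ = 1 := by
  rw [un, norm_mul, Complex.norm_real, norm_inv, norm_norm,
    inv_mul_cancel₀ (norm_ne_zero_iff.2 h)]

theorem un_cont : ContinuousOn un {p | 1 / 2 ≤ ‖p‖} := by
  unfold un
  refine ContinuousOn.mul ?_ continuousOn_id
  refine Complex.continuous_ofReal.comp_continuousOn ?_
  refine ContinuousOn.inv₀ continuous_norm.continuousOn ?_
  intro p hp
  have : (1 : ℝ) / 2 ≤ ‖p‖ := hp
  linarith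

/-- determinant of the collar -/
noncomputable def aa (μ : ℝ × ℝ → (Fin (k + 1) → ℂ) →L[ℂ] ℂ) (κ : ℂ) (r : ℝ) (p : ℂ) : ℂ :=
  ((2 - 2 * ‖p‖ : ℝ) : ℂ) * (1 - μ (r • sq (un p)) (f0 k)) + ((2 * ‖p‖ - 1 : ℝ) : ℂ) * (κ * r * un p)

/-- off diagonal part of the collar -/
noncomputable def nn (μ : ℝ × ℝ → (Fin (k + 1) → ℂ) →L[ℂ] ℂ) (r : ℝ) (p : ℂ) :
    (Fin (k + 1) → ℂ) →L[ℂ] ℂ :=
  ((2 - 2 * ‖p‖ : ℝ) : ℂ) • μ (r • sq (un p))

open Classical in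
/-- inner disc with collar -/
noncomputable def Fi (F F' : ℝ × ℝ → (Fin (k + 1) → ℂ) → (Fin (k + 1) → ℂ))
    (H : ℝ → (Fin (k + 1) → ℂ) → (Fin (k + 1) → ℂ))
    (μ : ℝ × ℝ → (Fin (k + 1) → ℂ) →L[ℂ] ℂ) (κ : ℂ) (r : ℝ) (p : ℂ) :
    (Fin (k + 1) → ℂ) → (Fin (k + 1) → ℂ) :=
  if ‖p‖ ≤ 1 / 2 then F' (r • sq (((2 : ℝ) : ℂ) * p))
  else fun w => Fo F H r (starRingEnd ℂ (un p)) (Nn (aa μ κ r p) (nn μ r p) w)

theorem norm_rsq (hr : 0 < r) {u : ℂ} (hu : ‖u‖ = 1) : ‖r • sq u‖ = r := by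
  rw [norm_smul, norm_sq, hu, Real.norm_of_nonneg hr.le, mul_one]

theorem aa_ne (hr : 0 < r) (hκ : κ ≠ 0)
    (hasy : ∀ h : ℝ × ℝ, ‖h‖ = r → ‖1 - μ h (f0 k) - κ * cx h‖ ≤ 1 / 4 * (‖κ‖ * r))
    {p : ℂ} (hp : 1 / 2 ≤ ‖p‖) (hp1 : ‖p‖ ≤ 1) : aa μ κ r p ≠ 0 := by
  have hp0 : p ≠ 0 := by
    rintro rfl; simp at hp; linarith
  set u := un p with hu
  have hu1 : ‖u‖ = 1 := norm_un hp0
  have hpl : 0 < ‖pl u‖ := by
    rw [norm_pos_iff]
    intro h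
    rw [pl_eq_zero h] at hu1
    simp at hu1
  have hpl1 : ‖pl u‖ ≤ 1 := hu1 ▸ norm_pl_le u
  have h1 := hasy (r • sq u) (norm_rsq hr hu1)
  have h2 : cx (r • sq u) = ((r / ‖pl u‖ : ℝ) : ℂ) * u := by
    rw [sq, hu1, smul_smul, cx_smul, cx_pl]
    congr 2
    ring
  set b : ℂ := 1 - μ (r • sq u) (f0 k) with hb
  set s : ℝ := 2 * ‖p‖ - 1 with hs
  have hs0 : 0 ≤ s := by rw [hs]; linarith
  have hs1 : s ≤ 1 := by rw [hs]; linarith
  have h3 : aa μ κ r p = (((1 - s) * (r / ‖pl u‖) + s * r : ℝ) : ℂ) * (κ * u) +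
      ((1 - s : ℝ) : ℂ) * (b - κ * cx (r • sq u)) := by
    rw [aa, ← hu, ← hb, h2, ← hs]
    have : (2 - 2 * ‖p‖ : ℝ) = 1 - s := by rw [hs]; ring
    rw [this]
    clear_value s b
    push_cast
    ring
  have hκ' : 0 < ‖κ‖ := norm_pos_iff.2 hκ
  have h4 : r ≤ r / ‖pl u‖ := by
    rw [le_div_iff₀ hpl]
    nlinarith
  have h5 : ‖(((1 - s) * (r / ‖pl u‖) + s * r : ℝ) : ℂ) * (κ * u)‖ ≥ r * ‖κ‖ := by
    rw [norm_mul, norm_mul, hu1, mul_one, Complex.norm_real]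
    have h6 : r ≤ (1 - s) * (r / ‖pl u‖) + s * r := by nlinarith
    rw [Real.norm_of_nonneg (hr.le.trans h6)]
    exact mul_le_mul_of_nonneg_right h6 hκ'.le
  have h7 : ‖((1 - s : ℝ) : ℂ) * (b - κ * cx (r • sq u))‖ ≤ 1 / 4 * (‖κ‖ * r) := by
    rw [norm_mul, Complex.norm_real, Real.norm_of_nonneg (by linarith)]
    calc (1 - s) * ‖b - κ * cx (r • sq u)‖ ≤ 1 * (1 / 4 * (‖κ‖ * r)) :=
          mul_le_mul (by linarith) h1 (norm_nonneg _) zero_le_one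
      _ = _ := one_mul _
  intro h8
  rw [h3] at h8
  have h9 := eq_neg_of_add_eq_zero_left h8
  rw [h9, norm_neg] at h5
  have : 0 < ‖κ‖ * r := by positivity
  nlinarith

theorem Fi_fm (hF : Fm (Lat 0)ᶜ F) (hp1 : ∀ ξ w, F (ξ + (1, 0)) w = F ξ w)
    (hp2 : ∀ ξ w, F (ξ + (0, 1)) w = F ξ w) (hH : Fm (Icc (0 : ℝ) 1) H)
    (hH0 : ∀ w, H 0 w = F (1 / 2, 1 / 2) w) (hH1 : ∀ w, H 1 w = w) (hr : 0 < r)
    (hr1 : r ≤ 1 / 2) (hF' : Fm (closedBall (0 : ℝ × ℝ) r) F')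
    (hμ : ContinuousOn μ (closedBall (0 : ℝ × ℝ) r)) (hκ : κ ≠ 0)
    (hasy : ∀ h : ℝ × ℝ, ‖h‖ = r → ‖1 - μ h (f0 k) - κ * cx h‖ ≤ 1 / 4 * (‖κ‖ * r))
    (hrel : ∀ ξ : ℝ × ℝ, ‖ξ‖ = r → ∀ w, F ξ (w - μ ξ w • f0 k) = F' ξ w) :
    Fm (closedBall (0 : ℂ) 1) (Fi F F' H μ κ r) := by
  have hne : ∀ p : ℂ, 1 / 2 ≤ ‖p‖ → p ≠ 0 := by
    rintro p hp rfl
    simp at hp
    linarith
  refine Fm.glue (A := {q : ℂ | ‖q‖ ≤ 1 / 2}) (B := {q : ℂ | 1 / 2 ≤ ‖q‖})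
    (isClosed_le continuous_norm continuous_const) (isClosed_le continuous_const continuous_norm)
    (fun q _ => le_total ‖q‖ (1 / 2))
    (Φ := fun p => F' (r • sq (((2 : ℝ) : ℂ) * p)))
    (Ψ := fun p w => Fo F H r (starRingEnd ℂ (un p)) (Nn (aa μ κ r p) (nn μ r p) w))
    ?_ ?_ ?_ ?_
  · refine hF'.reparam (g := fun p : ℂ => r • sq (((2 : ℝ) : ℂ) * p)) ?_ ?_
    · exact ((sq_cont.comp (continuous_const.mul continuous_id)).const_smul r).continuousOn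
    · rintro q ⟨_, hq⟩
      have hq' : ‖q‖ ≤ 1 / 2 := hq
      rw [mem_closedBall_zero_iff, norm_smul, norm_sq, norm_mul, Complex.norm_real,
        Real.norm_of_nonneg hr.le]
      norm_num
      nlinarith
  · have hcu : ContinuousOn (fun p : ℂ => r • sq (un p))
        (closedBall 0 1 ∩ {q : ℂ | 1 / 2 ≤ ‖q‖}) :=
      (sq_cont.comp_continuousOn (un_cont.mono inter_subset_right)).const_smul r
    have hmu : ContinuousOn (fun p : ℂ => μ (r • sq (un p)))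
        (closedBall 0 1 ∩ {q : ℂ | 1 / 2 ≤ ‖q‖}) :=
      hμ.comp hcu (fun p hp => by
        rw [mem_closedBall_zero_iff]
        exact (norm_rsq hr (norm_un (hne p hp.2))).le)
    refine Fm.comp (Φ := fun p => Fo F H r (starRingEnd ℂ (un p)))
      (Ψ := fun p => Nn (aa μ κ r p) (nn μ r p)) ?_ ?_
    · refine (Fo_fm hF hp1 hp2 hH hH0 hH1 hr (by linarith)).reparam
        (g := fun p : ℂ => starRingEnd ℂ (un p)) ?_ ?_
      · exact Complex.continuous_conj.comp_continuousOn (un_cont.mono inter_subset_right)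
      · rintro p ⟨_, hp⟩
        rw [mem_closedBall_zero_iff, RCLike.norm_conj, norm_un (hne p hp)]
    · refine Nn_fm ?_ ?_ ?_
      · unfold aa
        have c1 : ContinuousOn (fun p : ℂ => ((2 - 2 * ‖p‖ : ℝ) : ℂ))
            (closedBall 0 1 ∩ {q : ℂ | 1 / 2 ≤ ‖q‖}) :=
          (Complex.continuous_ofReal.comp (by fun_prop : Continuous fun p : ℂ =>
            (2 - 2 * ‖p‖ : ℝ))).continuousOn
        have c2 : ContinuousOn (fun p : ℂ => ((2 * ‖p‖ - 1 : ℝ) : ℂ))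
            (closedBall 0 1 ∩ {q : ℂ | 1 / 2 ≤ ‖q‖}) :=
          (Complex.continuous_ofReal.comp (by fun_prop : Continuous fun p : ℂ =>
            (2 * ‖p‖ - 1 : ℝ))).continuousOn
        exact (c1.mul (continuousOn_const.sub (hmu.clm_apply continuousOn_const))).add
          (c2.mul (continuousOn_const.mul (un_cont.mono inter_subset_right)))
      · unfold nn
        have c1 : ContinuousOn (fun p : ℂ => ((2 - 2 * ‖p‖ : ℝ) : ℂ))
            (closedBall 0 1 ∩ {q : ℂ | 1 / 2 ≤ ‖q‖}) :=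
          (Complex.continuous_ofReal.comp (by fun_prop : Continuous fun p : ℂ =>
            (2 - 2 * ‖p‖ : ℝ))).continuousOn
        exact c1.smul hmu
      · rintro p ⟨h1, h2⟩
        exact aa_ne hr hκ hasy h2 (mem_closedBall_zero_iff.1 h1)
  · rintro q ⟨_, hq⟩ w
    have hq' : ‖q‖ ≤ 1 / 2 := hq
    simp only [Fi]
    rw [if_pos hq']
  · rintro q ⟨hq1, hq⟩ w
    have hq' : (1 : ℝ) / 2 ≤ ‖q‖ := hq
    simp only [Fi]
    split_ifs with h
    · have h2 : ‖q‖ = 1 / 2 := le_antisymm h hq'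
      have h3 : un q = ((2 : ℝ) : ℂ) * q := by
        rw [un, h2]; norm_num
      have h4 : ‖un q‖ = 1 := norm_un (hne q hq')
      have h5 : aa μ κ r q = 1 - μ (r • sq (un q)) (f0 k) := by
        rw [aa, h2]; norm_num
      have h6 : nn μ r q = μ (r • sq (un q)) := by
        rw [nn, h2]; norm_num
      rw [h5, h6, Nn_mu, Fo_circle hr hr1 h4, hrel _ (norm_rsq hr h4), h3]
    · rfl

theorem top_core (hF : Fm (Lat 0)ᶜ F) (hp1 : ∀ ξ w, F (ξ + (1, 0)) w = F ξ w)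
    (hp2 : ∀ ξ w, F (ξ + (0, 1)) w = F ξ w) (hr : 0 < r)
    (hr1 : r ≤ 1 / 2) (hF' : Fm (closedBall (0 : ℝ × ℝ) r) F')
    (hμ : ContinuousOn μ (closedBall (0 : ℝ × ℝ) r)) (hκ : κ ≠ 0)
    (hasy : ∀ h : ℝ × ℝ, ‖h‖ = r → ‖1 - μ h (f0 k) - κ * cx h‖ ≤ 1 / 4 * (‖κ‖ * r))
    (hrel : ∀ ξ : ℝ × ℝ, ‖ξ‖ = r → ∀ w, F ξ (w - μ ξ w • f0 k) = F' ξ w) : False := by
  have hmem : ((1 / 2, 1 / 2) : ℝ × ℝ) ∈ (Lat 0)ᶜ := by
    apply not_lat (by norm_num) (by norm_num)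
    intro h
    have := congrArg Prod.fst h
    norm_num at this
  obtain ⟨H, hH, hH0, hH1, hHh, hHn⟩ := gen_point (F (1 / 2, 1 / 2))
    (by
      have h1 : ContinuousOn (fun w : Fin (k + 1) → ℂ => (((1 / 2, 1 / 2) : ℝ × ℝ), w)) univ := by
        fun_prop
      have h2 := hF.cont.comp h1 (fun w _ => ⟨hmem, mem_univ _⟩)
      exact continuousOn_univ.1 h2) (hF.hom _ hmem) (hF.ne _ hmem)
  have hHf : Fm (Icc (0 : ℝ) 1) H := ⟨hH.continuousOn, fun s _ c w => hHh s c w,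
    fun s hs w hw => hHn s hs w hw⟩
  have hFi := Fi_fm (κ := κ) hF hp1 hp2 hHf hH0 hH1 hr hr1 hF' hμ hκ hasy hrel
  have hFo := Fo_fm (r := r) hF hp1 hp2 hHf hH0 hH1 hr (by linarith)
  have hκr : κ * r ≠ 0 := mul_ne_zero hκ (by rw [Complex.ofReal_ne_zero]; exact hr.ne')
  have hD : Fm (closedBall (0 : ℂ) 1) (fun _ : ℂ => Nn ((κ * r)⁻¹)
      (0 : (Fin (k + 1) → ℂ) →L[ℂ] ℂ)) :=
    Nn_fm continuousOn_const continuousOn_const (fun p _ => inv_ne_zero hκr)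
  refine clutch (hFi.comp hD) hFo ?_
  intro p hp z e
  have hp0 : p ≠ 0 := by rintro rfl; simp at hp
  have h3 : un p = p := by rw [un, hp]; simp
  have h5 : aa μ κ r p = κ * r * p := by
    rw [aa, h3, hp]; norm_num
  have h6 : nn μ r p = 0 := by
    have h7 : ((2 - 2 * (1 : ℝ) : ℝ) : ℂ) = 0 := by norm_num
    rw [nn, hp, h7]
    ext w
    simp
  simp only [Fi]
  rw [if_neg (by rw [hp]; norm_num), h3, h5, h6, Nn_diag, Nn_diag]
  have hr' : (r : ℂ) ≠ 0 := by rw [Complex.ofReal_ne_zero]; exact hr.ne'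
  congr 2
  field_simp

end

end Vale.Agent.P247.H931
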